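import Vale.Agent.P363.R.H10.Div

/-! Line derivatives of radial functions, the regularised Coulomb kernel, and basic integrability
facts on `R3`. -/

namespace Vale.Agent.P363.R.H10

open MeasureTheory Measure Module Topology Filter Set
open Vale.Agent.P363.Stmt

noncomputable section

/-- standard basis vector -/
abbrev ei (i : Fin 3) : R3 := EuclideanSpace.single i 1

lemma finrank_R3 : finrank ℝ R3 = 3 := by simp

lemma inner_ei (y : R3) (i : Fin 3) : inner ℝ y (ei i) = y i := by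
  simp [ei, EuclideanSpace.inner_single_right]

lemma norm_sq_eq_sum (y : R3) : ‖y‖ ^ 2 = y 0 ^ 2 + y 1 ^ 2 + y 2 ^ 2 := by
  rw [EuclideanSpace.norm_sq_eq]
  simp [Fin.sum_univ_three]

lemma abs_coord_le (y : R3) (i : Fin 3) : |y i| ≤ ‖y‖ := by
  rw [← Real.norm_eq_abs]
  exact PiLp.norm_apply_le y i

lemma hasLineDerivAt_coord (y : R3) (i j : Fin 3) :
    HasLineDerivAt ℝ (fun y : R3 => y j) (if i = j then 1 else 0) y (ei i) := by
  unfold HasLineDerivAt
  have e : (fun t : ℝ => (y + t • ei i) j) = fun t => t * (if i = j then 1 else 0) + y j := by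
    ext t
    simp only [ei, PiLp.add_apply, PiLp.smul_apply, smul_eq_mul, PiLp.single_apply]
    split_ifs with h1 h2 h2
    · ring
    · exact absurd h1.symm h2
    · exact absurd h2.symm h1
    · ring
  rw [e]
  simpa using ((hasDerivAt_id (0 : ℝ)).mul_const (if i = j then (1 : ℝ) else 0)).add_const (y j)

lemma hasLineDerivAt_normsq (a y : R3) (i : Fin 3) :
    HasLineDerivAt ℝ (fun y : R3 => ‖y - a‖ ^ 2) (2 * (y i - a i)) y (ei i) := by
  unfold HasLineDerivAt
  have e : (fun t : ℝ => ‖y + t • ei i - a‖ ^ 2) =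
      fun t => ‖y - a‖ ^ 2 + 2 * (y i - a i) * t + t ^ 2 := by
    ext t
    have : y + t • ei i - a = (y - a) + t • ei i := by abel
    rw [this, norm_add_sq_real, inner_smul_right, inner_ei, norm_smul]
    simp
    ring
  rw [e]
  have h := (((hasDerivAt_id (0 : ℝ)).const_mul (2 * (y i - a i))).const_add (‖y - a‖ ^ 2)).add
    (hasDerivAt_pow 2 (0 : ℝ))
  simp only [id, mul_one, Nat.cast_ofNat, mul_zero, add_zero, Nat.reduceSub, pow_succ] at h
  convert! h using 1

/-- `s_e(y) = √(‖y - a‖² + e²)` -/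
def ss (e : ℝ) (a y : R3) : ℝ := Real.sqrt (‖y - a‖ ^ 2 + e ^ 2)

lemma ss_sq (e : ℝ) (a y : R3) : ss e a y ^ 2 = ‖y - a‖ ^ 2 + e ^ 2 :=
  Real.sq_sqrt (by positivity)

lemma ss_nonneg (e : ℝ) (a y : R3) : 0 ≤ ss e a y := Real.sqrt_nonneg _

lemma norm_le_ss (e : ℝ) (a y : R3) : ‖y - a‖ ≤ ss e a y := by
  exact Real.le_sqrt_of_sq_le (by nlinarith [sq_nonneg e])

lemma le_ss {e : ℝ} (_he : 0 ≤ e) (a y : R3) : e ≤ ss e a y := by
  exact Real.le_sqrt_of_sq_le (by nlinarith [sq_nonneg ‖y - a‖])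

lemma ss_pos {e : ℝ} (he : 0 < e) (a y : R3) : 0 < ss e a y := he.trans_le (le_ss he.le a y)

lemma ss_zero (y : R3) : ss 0 0 y = ‖y‖ := by simp [ss, Real.sqrt_sq]

lemma continuous_ss (e : ℝ) (a : R3) : Continuous (ss e a) := by unfold ss; fun_prop

lemma hasLineDerivAt_ss {e : ℝ} {a y : R3} (h : 0 < ss e a y) (i : Fin 3) :
    HasLineDerivAt ℝ (ss e a) ((y i - a i) / ss e a y) y (ei i) := by
  have h1 : HasLineDerivAt ℝ (fun y : R3 => ‖y - a‖ ^ 2 + e ^ 2) (2 * (y i - a i)) y (ei i) := by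
    have := hasLineDerivAt_normsq a y i
    unfold HasLineDerivAt at this ⊢
    exact this.add_const (e ^ 2)
  unfold HasLineDerivAt at h1 ⊢
  have hne : ‖y + (0 : ℝ) • ei i - a‖ ^ 2 + e ^ 2 ≠ 0 := by
    simp only [zero_smul, add_zero]
    rw [← ss_sq]; positivity
  have h2 := h1.sqrt hne
  convert! h2 using 1
  simp only [zero_smul, add_zero]
  rw [← ss]
  field_simp

/-- chain rule: `F ∘ s` -/
lemma hasLineDerivAt_comp_ss {e : ℝ} {a y : R3} (h : 0 < ss e a y) (i : Fin 3) {F : ℝ → ℝ} {F' : ℝ}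
    (hF : HasDerivAt F F' (ss e a y)) :
    HasLineDerivAt ℝ (fun y => F (ss e a y)) (F' * ((y i - a i) / ss e a y)) y (ei i) := by
  have h1 := hasLineDerivAt_ss h i
  unfold HasLineDerivAt at h1 ⊢
  have h2 : HasDerivAt F F' (ss e a (y + (0 : ℝ) • ei i)) := by simpa using hF
  exact h2.comp 0 h1

lemma HasLineDerivAt.mul' {f g : R3 → ℝ} {f' g' : ℝ} {y v : R3}
    (hf : HasLineDerivAt ℝ f f' y v) (hg : HasLineDerivAt ℝ g g' y v) :
    HasLineDerivAt ℝ (fun y => f y * g y) (f' * g y + f y * g') y v := by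
  unfold HasLineDerivAt at *
  have h := hf.mul hg
  simp only [zero_smul, add_zero] at h
  exact h

lemma HasLineDerivAt.sub' {f g : R3 → ℝ} {f' g' : ℝ} {y v : R3}
    (hf : HasLineDerivAt ℝ f f' y v) (hg : HasLineDerivAt ℝ g g' y v) :
    HasLineDerivAt ℝ (fun y => f y - g y) (f' - g') y v := by
  unfold HasLineDerivAt at *
  exact hf.sub hg

lemma HasLineDerivAt.neg' {f : R3 → ℝ} {f' : ℝ} {y v : R3}
    (hf : HasLineDerivAt ℝ f f' y v) :
    HasLineDerivAt ℝ (fun y => - f y) (-f') y v := by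
  unfold HasLineDerivAt at *
  exact hf.neg

/-- the regularised Coulomb kernel `1/√(‖y-a‖²+e²)` -/
def kk (e : ℝ) (a y : R3) : ℝ := 1 / ss e a y

/-- its first derivatives -/
def kk1 (e : ℝ) (a : R3) (i : Fin 3) (y : R3) : ℝ := -(y i - a i) / ss e a y ^ 3

/-- its second derivatives (diagonal) -/
def kk2 (e : ℝ) (a : R3) (i : Fin 3) (y : R3) : ℝ :=
  -1 / ss e a y ^ 3 + 3 * (y i - a i) ^ 2 / ss e a y ^ 5

lemma hasLineDerivAt_kk {e : ℝ} {a y : R3} (h : 0 < ss e a y) (i : Fin 3) :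
    HasLineDerivAt ℝ (kk e a) (kk1 e a i y) y (ei i) := by
  have hF : HasDerivAt (fun s : ℝ => 1 / s) (-1 / ss e a y ^ 2) (ss e a y) := by
    have := hasDerivAt_inv h.ne'
    convert! this using 1
    · ext s; simp
    · field_simp
  have := hasLineDerivAt_comp_ss h i hF
  convert! this using 1
  simp only [kk1]
  field_simp

lemma hasLineDerivAt_kk1 {e : ℝ} {a y : R3} (h : 0 < ss e a y) (i : Fin 3) :
    HasLineDerivAt ℝ (kk1 e a i) (kk2 e a i y) y (ei i) := by
  have hF : HasDerivAt (fun s : ℝ => 1 / s ^ 3) (-3 / ss e a y ^ 4) (ss e a y) := by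
    have h1 := (hasDerivAt_pow 3 (ss e a y)).inv (pow_ne_zero 3 h.ne')
    convert! h1 using 1
    · ext s; simp
    · push_cast
      field_simp
  have h1 := hasLineDerivAt_comp_ss h i hF
  have h2 : HasLineDerivAt ℝ (fun y : R3 => -(y i - a i)) (-1) y (ei i) := by
    have h3 := hasLineDerivAt_coord y i i
    unfold HasLineDerivAt at h3 ⊢
    simp only [if_true] at h3
    exact (h3.sub_const (a i)).neg
  have h4 := HasLineDerivAt.mul' h2 h1
  convert! h4 using 1
  · ext y; simp only [kk1]; ring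
  · simp only [kk2]
    field_simp

lemma sum_kk2 {e : ℝ} {a y : R3} (h : 0 < ss e a y) :
    kk2 e a 0 y + kk2 e a 1 y + kk2 e a 2 y = -(3 * e ^ 2 / ss e a y ^ 5) := by
  have h1 : (y 0 - a 0) ^ 2 + (y 1 - a 1) ^ 2 + (y 2 - a 2) ^ 2 = ss e a y ^ 2 - e ^ 2 := by
    rw [ss_sq, norm_sq_eq_sum]; simp
  have h2 : kk2 e a 0 y + kk2 e a 1 y + kk2 e a 2 y =
      -3 / ss e a y ^ 3 + 3 * ((y 0 - a 0) ^ 2 + (y 1 - a 1) ^ 2 + (y 2 - a 2) ^ 2) /
        ss e a y ^ 5 := by simp only [kk2]; ring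
  rw [h2, h1]
  field_simp
  ring

/-- integrals of radial functions -/
lemma integral_radial (F : ℝ → ℝ) :
    ∫ x : R3, F ‖x‖ = 4 * Real.pi * ∫ r in Ioi (0 : ℝ), r ^ 2 * F r := by
  have h := integral_fun_norm_addHaar (volume : Measure R3) F
  rw [h, finrank_R3]
  have hb : (volume : Measure R3).real (Metric.ball 0 1) = 4 / 3 * Real.pi := by
    rw [Measure.real, InnerProductSpace.volume_ball, finrank_R3]
    simp only [ENNReal.ofReal_one, one_pow, one_mul]
    rw [ENNReal.toReal_ofReal (by positivity)]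
    rw [show ((3 : ℕ) : ℝ) / 2 + 1 = ((2 : ℕ) : ℝ) + 1 / 2 by norm_num, Real.Gamma_nat_add_half]
    have : Real.sqrt Real.pi ^ 3 = Real.pi * Real.sqrt Real.pi := by
      rw [pow_succ, Real.sq_sqrt Real.pi_pos.le]
    rw [this]
    have : Real.sqrt Real.pi ≠ 0 := by positivity
    norm_num [Nat.doubleFactorial]
    field_simp
  rw [hb]
  simp only [nsmul_eq_mul, smul_eq_mul]
  push_cast
  ring

lemma integrable_radial {F : ℝ → ℝ} :
    Integrable (fun x : R3 => F ‖x‖) ↔ IntegrableOn (fun r => r ^ 2 * F r) (Ioi 0) := by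
  have h := integrable_fun_norm_addHaar (volume : Measure R3) (f := F)
  rw [h, finrank_R3]
  simp

end

end Vale.Agent.P363.R.H10
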