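import Vale.Agent.P363.R.H10.Values
import Vale.Agent.P363.R.Top.Defs
import Vale.Agent.P363.H979.CI.Defs

/-! The table of Coulomb integrals of the hydrogen orbitals (output of block B3a). -/

namespace Vale.Agent.P363.R.H10

open MeasureTheory Measure Module Topology Filter Set
open Vale.Agent.P363.Stmt
open Vale.Agent.P363.R.Top (orb)
open Vale.Agent.P363.H979.CI (Table)

noncomputable section

/-- electron repulsion integrals of the orbitals -/
def eri (a b c d : Fin 5) : ℝ :=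
  ∫ x : R3, ∫ y : R3, orb a x * orb b x * (orb c y * orb d y) / ‖x - y‖

lemma eri_eq (a b c d : Fin 5) :
    eri a b c d = DD (fun x => orb a x * orb b x) (fun y => orb c y * orb d y) := rfl

/-- the label of the `k`-th `2p` orbital -/
def pk (k : Fin 3) : Fin 5 := k.succ.succ

lemma exists_pk : ∀ i : Fin 5, 2 ≤ i → ∃ k : Fin 3, i = pk k := by decide

lemma pk_ne : ∀ k l : Fin 3, pk k ≠ pk l → k ≠ l := by decide

lemma orb0 (x : R3) : orb 0 x = Real.exp (-‖x‖) / Real.sqrt Real.pi := rfl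

lemma orb1 (x : R3) :
    orb 1 x = (2 - ‖x‖) * Real.exp (-‖x‖ / 2) / (4 * Real.sqrt (2 * Real.pi)) := rfl

lemma orbp (k : Fin 3) (x : R3) :
    orb (pk k) x = x k * Real.exp (-‖x‖ / 2) / (4 * Real.sqrt (2 * Real.pi)) := by
  fin_cases k <;> rfl

lemma cases5 : ∀ a : Fin 5, a = 0 ∨ a = 1 ∨ ∃ k : Fin 3, a = pk k := by decide

lemma continuous_orb (a : Fin 5) : Continuous (orb a) := by
  rcases cases5 a with rfl | rfl | ⟨k, rfl⟩
  · rw [show orb 0 = fun x => Real.exp (-‖x‖) / Real.sqrt Real.pi from rfl]; fun_prop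
  · rw [show orb 1 = fun x => (2 - ‖x‖) * Real.exp (-‖x‖ / 2) / (4 * Real.sqrt (2 * Real.pi))
      from rfl]; fun_prop
  · rw [show orb (pk k) = fun x => x k * Real.exp (-‖x‖ / 2) / (4 * Real.sqrt (2 * Real.pi)) from
      funext (orbp k)]
    fun_prop

lemma two_le_den : 2 ≤ 4 * Real.sqrt (2 * Real.pi) := by
  have h1 : (1 : ℝ) ≤ 2 * Real.pi := by linarith [Real.pi_gt_three]
  have : (1 : ℝ) ≤ Real.sqrt (2 * Real.pi) := Real.one_le_sqrt.2 h1
  linarith

lemma abs_orb_le (a : Fin 5) (x : R3) : |orb a x| ≤ (1 + ‖x‖) * Real.exp (-(1 / 2) * ‖x‖) := by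
  have hx := norm_nonneg x
  have e2 : Real.exp (-‖x‖ / 2) = Real.exp (-(1 / 2) * ‖x‖) := by congr 1; ring
  have hd := two_le_den
  rcases cases5 a with rfl | rfl | ⟨k, rfl⟩
  · rw [orb0, abs_div, abs_of_pos (Real.exp_pos _), abs_of_nonneg (Real.sqrt_nonneg _)]
    have h1 : (1 : ℝ) ≤ Real.sqrt Real.pi := Real.one_le_sqrt.2 (by linarith [Real.pi_gt_three])
    calc Real.exp (-‖x‖) / Real.sqrt Real.pi ≤ Real.exp (-‖x‖) / 1 :=
          div_le_div_of_nonneg_left (Real.exp_pos _).le one_pos h1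
      _ = Real.exp (-‖x‖) := by simp
      _ ≤ 1 * Real.exp (-(1 / 2) * ‖x‖) := by
          rw [one_mul]; exact Real.exp_le_exp.2 (by linarith)
      _ ≤ _ := mul_le_mul_of_nonneg_right (by linarith) (Real.exp_pos _).le
  · rw [orb1, abs_div, abs_mul, abs_of_pos (Real.exp_pos _), e2,
      abs_of_nonneg (by positivity : (0 : ℝ) ≤ 4 * Real.sqrt (2 * Real.pi)),
      div_le_iff₀ (by linarith)]
    have h1 : |2 - ‖x‖| ≤ 2 * (1 + ‖x‖) := by rw [abs_le]; constructor <;> linarith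
    have := Real.exp_pos (-(1 / 2) * ‖x‖)
    calc |2 - ‖x‖| * Real.exp (-(1 / 2) * ‖x‖) ≤ 2 * (1 + ‖x‖) * Real.exp (-(1 / 2) * ‖x‖) :=
          mul_le_mul_of_nonneg_right h1 this.le
      _ = (1 + ‖x‖) * Real.exp (-(1 / 2) * ‖x‖) * 2 := by ring
      _ ≤ _ := mul_le_mul_of_nonneg_left hd (by positivity)
  · rw [orbp, abs_div, abs_mul, abs_of_pos (Real.exp_pos _), e2,
      abs_of_nonneg (by positivity : (0 : ℝ) ≤ 4 * Real.sqrt (2 * Real.pi)),
      div_le_iff₀ (by linarith)]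
    have h1 : |x k| ≤ 1 + ‖x‖ := coord_le x k
    have := Real.exp_pos (-(1 / 2) * ‖x‖)
    calc |x k| * Real.exp (-(1 / 2) * ‖x‖) ≤ (1 + ‖x‖) * Real.exp (-(1 / 2) * ‖x‖) :=
          mul_le_mul_of_nonneg_right h1 this.le
      _ ≤ (1 + ‖x‖) * Real.exp (-(1 / 2) * ‖x‖) * 2 := by
          have : 0 ≤ (1 + ‖x‖) * Real.exp (-(1 / 2) * ‖x‖) := by positivity
          linarith
      _ ≤ _ := mul_le_mul_of_nonneg_left hd (by positivity)

/-- products of orbitals decay rapidly -/
lemma nice_orb (a b : Fin 5) : Nice (fun x => orb a x * orb b x) := by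
  refine nice_of_le ((continuous_orb a).mul (continuous_orb b)).measurable one_pos 2
    zero_le_one (fun x => ?_)
  rw [abs_mul]
  calc |orb a x| * |orb b x| ≤ ((1 + ‖x‖) * Real.exp (-(1 / 2) * ‖x‖)) *
        ((1 + ‖x‖) * Real.exp (-(1 / 2) * ‖x‖)) :=
        mul_le_mul (abs_orb_le a x) (abs_orb_le b x) (abs_nonneg _) (by positivity)
    _ = 1 * (1 + ‖x‖) ^ 2 * (Real.exp (-(1 / 2) * ‖x‖) * Real.exp (-(1 / 2) * ‖x‖)) := by ring
    _ = _ := by rw [← Real.exp_add]; congr 2; ring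

/-- integrability of the repulsion integrands -/
theorem integrable_eri (a b c d : Fin 5) : Integrable (fun p : R3 × R3 =>
    orb a p.1 * orb b p.1 * (orb c p.2 * orb d p.2) / ‖p.1 - p.2‖) (volume.prod volume) :=
  (nice_orb a b).integrable_DD (nice_orb c d)

/-! ### products of orbitals -/

lemma sqrt_pi_sq : Real.sqrt Real.pi * Real.sqrt Real.pi = Real.pi :=
  Real.mul_self_sqrt Real.pi_pos.le

lemma sqrt_2pi_sq : Real.sqrt (2 * Real.pi) * Real.sqrt (2 * Real.pi) = 2 * Real.pi :=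
  Real.mul_self_sqrt (by positivity)

/-- mixed constant -/
def c01 : ℝ := 1 / (Real.sqrt Real.pi * (4 * Real.sqrt (2 * Real.pi)))

lemma c01_sq : c01 * c01 = 1 / (32 * Real.pi ^ 2) := by
  unfold c01
  rw [div_mul_div_comm, one_mul]
  congr 1
  calc Real.sqrt Real.pi * (4 * Real.sqrt (2 * Real.pi)) *
        (Real.sqrt Real.pi * (4 * Real.sqrt (2 * Real.pi))) =
        16 * (Real.sqrt Real.pi * Real.sqrt Real.pi) *
          (Real.sqrt (2 * Real.pi) * Real.sqrt (2 * Real.pi)) := by ring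
    _ = _ := by rw [sqrt_pi_sq, sqrt_2pi_sq]; ring

lemma prod00 : (fun x => orb 0 x * orb 0 x) = fun x => (1 / Real.pi) * Real.exp (-2 * ‖x‖) := by
  ext x
  rw [orb0, div_mul_div_comm, sqrt_pi_sq, ← Real.exp_add]
  rw [show -‖x‖ + -‖x‖ = -2 * ‖x‖ by ring]; ring

lemma prod_aux (u v : ℝ) (x : R3) :
    (u * Real.exp (-‖x‖ / 2) / (4 * Real.sqrt (2 * Real.pi))) *
      (v * Real.exp (-‖x‖ / 2) / (4 * Real.sqrt (2 * Real.pi))) =
      (1 / (32 * Real.pi)) * (u * v * Real.exp (-1 * ‖x‖)) := by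
  rw [div_mul_div_comm]
  have h1 : 4 * Real.sqrt (2 * Real.pi) * (4 * Real.sqrt (2 * Real.pi)) = 32 * Real.pi := by
    calc 4 * Real.sqrt (2 * Real.pi) * (4 * Real.sqrt (2 * Real.pi)) =
          16 * (Real.sqrt (2 * Real.pi) * Real.sqrt (2 * Real.pi)) := by ring
      _ = _ := by rw [sqrt_2pi_sq]; ring
  have h2 : Real.exp (-1 * ‖x‖) = Real.exp (-‖x‖ / 2) * Real.exp (-‖x‖ / 2) := by
    rw [← Real.exp_add]; congr 1; ring
  rw [h1, h2]; ring

lemma prod_aux1 (v : ℝ) (x : R3) :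
    Real.exp (-‖x‖) / Real.sqrt Real.pi *
      (v * Real.exp (-‖x‖ / 2) / (4 * Real.sqrt (2 * Real.pi))) =
      c01 * (v * Real.exp (-(3 / 2) * ‖x‖)) := by
  rw [div_mul_div_comm, c01]
  have h2 : Real.exp (-(3 / 2) * ‖x‖) = Real.exp (-‖x‖) * Real.exp (-‖x‖ / 2) := by
    rw [← Real.exp_add]; congr 1; ring
  rw [h2]; ring

lemma prod01 : (fun x => orb 0 x * orb 1 x) =
    fun x => c01 * ((2 - ‖x‖) * Real.exp (-(3 / 2) * ‖x‖)) := by
  ext x; rw [orb0, orb1, prod_aux1]

lemma prod0p (k : Fin 3) : (fun x => orb 0 x * orb (pk k) x) =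
    fun x => c01 * (x k * Real.exp (-(3 / 2) * ‖x‖)) := by
  ext x; rw [orb0, orbp, prod_aux1]

lemma prod11 : (fun x => orb 1 x * orb 1 x) =
    fun x => (1 / (32 * Real.pi)) * ((2 - ‖x‖) ^ 2 * Real.exp (-1 * ‖x‖)) := by
  ext x; rw [orb1, prod_aux]; ring

lemma prod1p (k : Fin 3) : (fun x => orb 1 x * orb (pk k) x) =
    fun x => (1 / (32 * Real.pi)) * (x k * ((2 - ‖x‖) * Real.exp (-1 * ‖x‖))) := by
  ext x; rw [orb1, orbp, prod_aux]; ring

lemma prodpp (k l : Fin 3) : (fun x => orb (pk k) x * orb (pk l) x) =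
    fun x => (1 / (32 * Real.pi)) * (x k * x l * Real.exp (-1 * ‖x‖)) := by
  ext x; rw [orbp, orbp, prod_aux]

/-! ### parity -/

lemma orb_refl (k : Fin 3) (a : Fin 5) (x : R3) :
    orb a (reflI k x) = (-1) ^ (if a = pk k then 1 else 0 : ℕ) * orb a x := by
  rcases cases5 a with rfl | rfl | ⟨l, rfl⟩
  · have : ¬ (0 : Fin 5) = pk k := by revert k; decide
    rw [orb0, orb0, LinearIsometryEquiv.norm_map]; simp [this]
  · have : ¬ (1 : Fin 5) = pk k := by revert k; decide
    rw [orb1, orb1, LinearIsometryEquiv.norm_map]; simp [this]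
  · rw [orbp, orbp, LinearIsometryEquiv.norm_map, reflI_apply]
    by_cases h : l = k
    · subst h; simp; ring
    · have h' : ¬ pk l = pk k := by
        intro h2; apply h; revert h2; revert k l; decide
      simp [h, h']

lemma eri_parity (k : Fin 3) (a b c d : Fin 5)
    (h : Odd ((if a = pk k then 1 else 0) + (if b = pk k then 1 else 0) +
      (if c = pk k then 1 else 0) + (if d = pk k then 1 else 0) : ℕ)) : eri a b c d = 0 := by
  have h1 : eri a b c d = DD (fun x => orb a (reflI k x) * orb b (reflI k x))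
      (fun x => orb c (reflI k x) * orb d (reflI k x)) := by
    rw [eri_eq, ← DD_isom (reflI k) (fun x => orb a x * orb b x)]
  simp only [orb_refl] at h1
  set p : ℕ := if a = pk k then 1 else 0
  set q : ℕ := if b = pk k then 1 else 0
  set r : ℕ := if c = pk k then 1 else 0
  set s : ℕ := if d = pk k then 1 else 0
  have e1 : (fun x => (-1) ^ p * orb a x * ((-1) ^ q * orb b x)) =
      fun x => ((-1) ^ (p + q) : ℝ) * (orb a x * orb b x) := by
    ext x; rw [pow_add]; ring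
  have e2 : (fun x => (-1) ^ r * orb c x * ((-1) ^ s * orb d x)) =
      fun x => ((-1) ^ (r + s) : ℝ) * (orb c x * orb d x) := by
    ext x; rw [pow_add]; ring
  rw [e1, e2, DD_mul_left, DD_mul_right, ← eri_eq, ← mul_assoc, ← pow_add, ← add_assoc,
    h.neg_one_pow] at h1
  linarith

/-- **the table of Coulomb integrals** -/
theorem table_eri : Table eri where
  symm_left := fun a b c d => by
    rw [eri_eq, eri_eq]; congr 1; ext x; ring
  symm_pair := fun a b c d => by
    rw [eri_eq, eri_eq, DD_comm (nice_orb a b) (nice_orb c d)]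
  parity := fun k hk a b c d h => by
    obtain ⟨l, rfl⟩ := exists_pk k hk
    exact eri_parity l a b c d h
  v0011 := by
    rw [eri_eq, DD_comm (nice_orb _ _) (nice_orb _ _), prod00, prod11, DD_mul_left, DD_mul_right,
      val_ss_11]
    have := Real.pi_pos
    field_simp
    norm_num
  v0101 := by
    rw [eri_eq, prod01, DD_mul_left, DD_mul_right, val_1s_1s, ← mul_assoc, c01_sq]
    have := Real.pi_pos
    field_simp
  v00pp := fun i hi => by
    obtain ⟨k, rfl⟩ := exists_pk i hi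
    rw [eri_eq, DD_comm (nice_orb _ _) (nice_orb _ _), prod00, prodpp, DD_mul_left, DD_mul_right]
    have hF := ex_ce (a := 1) (by norm_num) 1 0 0 0
    have hG := ex_ce (a := 2) (by norm_num) 1 0 0 0
    have h := DD_coord_sq (fun i => hF.niceS i) hG.nice0 k
    have e1 : (fun x : R3 => x k ^ 2 * ce 1 1 0 0 0 ‖x‖) =
        fun x => x k * x k * Real.exp (-1 * ‖x‖) := by ext x; simp only [ce]; ring
    have e2 : (fun x : R3 => ce 2 1 0 0 0 ‖x‖) = fun x => Real.exp (-2 * ‖x‖) := by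
      ext x; simp only [ce]; ring
    have e3 : (fun x : R3 => ‖x‖ ^ 2 * ce 1 1 0 0 0 ‖x‖) =
        fun x => ‖x‖ ^ 2 * Real.exp (-1 * ‖x‖) := by ext x; simp only [ce]; ring
    rw [e1, e2, e3, val_pp_11] at h
    rw [h]
    have := Real.pi_pos
    field_simp
    norm_num
  v0p0p := fun i hi => by
    obtain ⟨k, rfl⟩ := exists_pk i hi
    rw [eri_eq, prod0p, DD_mul_left, DD_mul_right, val_1p_1p, ← mul_assoc, c01_sq]
    have := Real.pi_pos
    field_simp
    norm_num
  v1111 := by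
    rw [eri_eq, prod11, DD_mul_left, DD_mul_right, val_ss_ss]
    have := Real.pi_pos
    field_simp
    norm_num
  v11pp := fun i hi => by
    obtain ⟨k, rfl⟩ := exists_pk i hi
    rw [eri_eq, DD_comm (nice_orb _ _) (nice_orb _ _), prod11, prodpp, DD_mul_left, DD_mul_right]
    have hF := ex_ce (a := 1) (by norm_num) 1 0 0 0
    have hG := ex_ce (a := 1) (by norm_num) 4 (-4) 1 0
    have h := DD_coord_sq (fun i => hF.niceS i) hG.nice0 k
    have e1 : (fun x : R3 => x k ^ 2 * ce 1 1 0 0 0 ‖x‖) =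
        fun x => x k * x k * Real.exp (-1 * ‖x‖) := by ext x; simp only [ce]; ring
    have e2 : (fun x : R3 => ce 1 4 (-4) 1 0 ‖x‖) =
        fun x => (2 - ‖x‖) ^ 2 * Real.exp (-1 * ‖x‖) := by ext x; simp only [ce]; ring
    have e3 : (fun x : R3 => ‖x‖ ^ 2 * ce 1 1 0 0 0 ‖x‖) =
        fun x => ‖x‖ ^ 2 * Real.exp (-1 * ‖x‖) := by ext x; simp only [ce]; ring
    rw [e1, e2, e3, val_pp_ss] at h
    rw [h]
    have := Real.pi_pos
    field_simp
    norm_num
  v1p1p := fun i hi => by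
    obtain ⟨k, rfl⟩ := exists_pk i hi
    rw [eri_eq, prod1p, DD_mul_left, DD_mul_right, val_sp_sp]
    have := Real.pi_pos
    field_simp
    norm_num
  vpppp := fun i hi => by
    obtain ⟨k, rfl⟩ := exists_pk i hi
    rw [eri_eq, prodpp, DD_mul_left, DD_mul_right]
    have hF := ex_ce (a := 1) (by norm_num) 1 0 0 0
    have e : ce 1 1 0 0 0 = fun r => Real.exp (-1 * r) := by ext r; simp only [ce]; ring
    rw [e] at hF
    have h1 := DD_total hF
    have h2 := DD_rot hF
    have h3 := DD_diag (F := fun r => Real.exp (-1 * r)) k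
    simp only at h1 h2 h3
    rw [val_pp_pp] at h1
    rw [val_xy_xy] at h2
    rw [h3]
    have h4 : DD (fun x : R3 => x 0 * x 0 * Real.exp (-1 * ‖x‖))
        (fun x => x 0 * x 0 * Real.exp (-1 * ‖x‖)) = 16 * Real.pi ^ 2 * (501 / 40) := by linarith
    rw [h4]
    have := Real.pi_pos
    field_simp
    norm_num
  vppqq := fun i j hi hj hij => by
    obtain ⟨k, rfl⟩ := exists_pk i hi
    obtain ⟨l, rfl⟩ := exists_pk j hj
    have hkl : k ≠ l := pk_ne k l hij
    rw [eri_eq, prodpp, prodpp, DD_mul_left, DD_mul_right]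
    have hF := ex_ce (a := 1) (by norm_num) 1 0 0 0
    have e : ce 1 1 0 0 0 = fun r => Real.exp (-1 * r) := by ext r; simp only [ce]; ring
    rw [e] at hF
    have h1 := DD_total hF
    have h2 := DD_rot hF
    have h3 := DD_diag2 (F := fun r => Real.exp (-1 * r)) hkl
    simp only at h1 h2 h3
    rw [val_pp_pp] at h1
    rw [val_xy_xy] at h2
    rw [h3]
    have h4 : DD (fun x : R3 => x 0 * x 0 * Real.exp (-1 * ‖x‖))
        (fun x => x 1 * x 1 * Real.exp (-1 * ‖x‖)) = 16 * Real.pi ^ 2 * (447 / 40) := by linarith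
    rw [h4]
    have := Real.pi_pos
    field_simp
    norm_num
  vpqpq := fun i j hi hj hij => by
    obtain ⟨k, rfl⟩ := exists_pk i hi
    obtain ⟨l, rfl⟩ := exists_pk j hj
    have hkl : k ≠ l := pk_ne k l hij
    rw [eri_eq, prodpp, DD_mul_left, DD_mul_right]
    have h3 := DD_offdiag (F := fun r => Real.exp (-1 * r)) hkl
    simp only at h3
    rw [h3, val_xy_xy]
    have := Real.pi_pos
    field_simp
    norm_num

/-- the `1s` self-energy -/
theorem eri_0000 : eri 0 0 0 0 = 5 / 8 := by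
  rw [eri_eq, prod00, DD_mul_left, DD_mul_right]
  have h := DD_val (a := 2) (b := 2) (by norm_num) (by norm_num) (1 / 4) (1 / 4) 0 0
    (fun _ => 1) (fun r => Real.exp (-2 * r)) (fun r _ => by ring)
    (p := ![0, 1 / 4]) (q := ![0, 1 / 4, 1 / 4])
    (fun r => by simp [Fin.sum_univ_succ]; ring) (fun r => by simp [Fin.sum_univ_succ]; ring)
  simp only [one_mul] at h
  rw [h]
  have := Real.pi_pos
  simp [Fin.sum_univ_succ, Nat.factorial]
  field_simp
  norm_num

end

end Vale.Agent.P363.R.H10
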