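import Vale.Agent.P363.R.H10.Calc

/-! Approximate identity `3e²/s⁵` (minus the Laplacian of the regularised kernel) and
integrability facts. -/

namespace Vale.Agent.P363.R.H10

open MeasureTheory Measure Module Topology Filter Set
open Vale.Agent.P363.Stmt

noncomputable section

lemma hasLineDerivAt_comp_norm {y : R3} (h : y ≠ 0) (i : Fin 3) {F : ℝ → ℝ} {F' : ℝ}
    (hF : HasDerivAt F F' ‖y‖) :
    HasLineDerivAt ℝ (fun y : R3 => F ‖y‖) (F' * (y i / ‖y‖)) y (ei i) := by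
  have h0 : 0 < ss 0 0 y := by rw [ss_zero]; exact norm_pos_iff.2 h
  have hF' : HasDerivAt F F' (ss 0 0 y) := by rwa [ss_zero]
  have h1 := hasLineDerivAt_comp_ss h0 i hF'
  have e : (fun y : R3 => F (ss 0 0 y)) = fun y => F ‖y‖ := by ext y; rw [ss_zero]
  rw [e, ss_zero] at h1
  simpa using h1

/-- profile -/
def prof (r : ℝ) : ℝ := 3 / Real.sqrt (r ^ 2 + 1) ^ 5

lemma hasDerivAt_prim (r : ℝ) :
    HasDerivAt (fun r : ℝ => r ^ 3 / Real.sqrt (r ^ 2 + 1) ^ 3) (r ^ 2 * prof r) r := by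
  have hp : 0 < r ^ 2 + 1 := by positivity
  have h1 : HasDerivAt (fun r : ℝ => r ^ 2 + 1) (2 * r) r := by
    simpa using (hasDerivAt_pow 2 r).add_const (1 : ℝ)
  have h2 := h1.sqrt hp.ne'
  have hs : 0 < Real.sqrt (r ^ 2 + 1) := Real.sqrt_pos.2 hp
  have h3 := (hasDerivAt_pow 3 r).div (h2.pow 3) (pow_ne_zero 3 hs.ne')
  convert! h3 using 1
  simp only [prof, Pi.pow_apply]
  have e : Real.sqrt (r ^ 2 + 1) ^ 2 = r ^ 2 + 1 := Real.sq_sqrt hp.le
  generalize Real.sqrt (r ^ 2 + 1) = s at *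
  have hs' : s ≠ 0 := hs.ne'
  push_cast
  field_simp
  have : r ^ 2 = s ^ 2 - 1 := by linarith
  rw [this]
  ring

lemma tendsto_prim : Tendsto (fun r : ℝ => r ^ 3 / Real.sqrt (r ^ 2 + 1) ^ 3) atTop (𝓝 1) := by
  have h1 : Tendsto (fun r : ℝ => 1 - 1 / (r ^ 2 + 1)) atTop (𝓝 (1 - 0)) := by
    apply Tendsto.sub tendsto_const_nhds
    apply Tendsto.div_atTop tendsto_const_nhds
    apply tendsto_atTop_add_const_right
    exact tendsto_pow_atTop (by norm_num)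
  have h2 := (h1.sqrt).pow 3
  simp only [sub_zero, Real.sqrt_one, one_pow] at h2
  refine h2.congr' ?_
  filter_upwards [eventually_ge_atTop 0] with r hr
  have hp : 0 < r ^ 2 + 1 := by positivity
  have : 1 - 1 / (r ^ 2 + 1) = r ^ 2 / (r ^ 2 + 1) := by field_simp; ring
  rw [this, Real.sqrt_div (by positivity), Real.sqrt_sq hr, div_pow]

lemma integral_prof : ∫ r in Ioi (0 : ℝ), r ^ 2 * prof r = 1 := by
  have hn : ∀ r ∈ Ioi (0 : ℝ), 0 ≤ r ^ 2 * prof r := fun r _ => by unfold prof; positivity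
  have := integral_Ioi_of_hasDerivAt_of_nonneg' (a := (0 : ℝ))
    (fun r _ => hasDerivAt_prim r) hn tendsto_prim
  simpa using this

lemma integrable_prof : Integrable (fun z : R3 => prof ‖z‖) := by
  rw [integrable_radial]
  have hn : ∀ r ∈ Ioi (0 : ℝ), 0 ≤ r ^ 2 * prof r := fun r _ => by unfold prof; positivity
  exact integrableOn_Ioi_deriv_of_nonneg' (fun r _ => hasDerivAt_prim r) hn tendsto_prim

lemma integral_prof3 : ∫ z : R3, prof ‖z‖ = 4 * Real.pi := by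
  rw [integral_radial, integral_prof, mul_one]

lemma ss_scale {e : ℝ} (he : 0 < e) (x z : R3) :
    ss e x (x + e • z) = e * Real.sqrt (‖z‖ ^ 2 + 1) := by
  rw [ss]
  have : ‖x + e • z - x‖ ^ 2 + e ^ 2 = e ^ 2 * (‖z‖ ^ 2 + 1) := by
    rw [add_sub_cancel_left, norm_smul, Real.norm_of_nonneg he.le]; ring
  rw [this, Real.sqrt_mul (by positivity), Real.sqrt_sq he.le]

lemma integral_approx_eq {e : ℝ} (he : 0 < e) (x : R3) (V : R3 → ℝ) :
    ∫ y, 3 * e ^ 2 / ss e x y ^ 5 * V y = ∫ z, prof ‖z‖ * V (x + e • z) := by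
  have h1 : ∫ y, 3 * e ^ 2 / ss e x y ^ 5 * V y =
      ∫ y, 3 * e ^ 2 / ss e x (x + y) ^ 5 * V (x + y) :=
    (integral_add_left_eq_self (fun y => 3 * e ^ 2 / ss e x y ^ 5 * V y) x).symm
  have h2 := Measure.integral_comp_smul (volume : Measure R3)
    (fun y => 3 * e ^ 2 / ss e x (x + y) ^ 5 * V (x + y)) e
  rw [finrank_R3, abs_of_pos (by positivity), smul_eq_mul] at h2
  rw [h1, eq_comm]
  have h3 : ∫ y, 3 * e ^ 2 / ss e x (x + y) ^ 5 * V (x + y) =
      e ^ 3 * ∫ z, 3 * e ^ 2 / ss e x (x + e • z) ^ 5 * V (x + e • z) := by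
    rw [h2]; field_simp
  rw [h3, ← integral_const_mul]
  congr 1
  ext z
  rw [ss_scale he, prof]
  have hs : 0 < Real.sqrt (‖z‖ ^ 2 + 1) := Real.sqrt_pos.2 (by positivity)
  field_simp

/-- the approximate identity -/
lemma tendsto_approx {V : R3 → ℝ} {C : ℝ} (hV : Measurable V) (hC : ∀ y, |V y| ≤ C) {x : R3}
    (hx : ContinuousAt V x) {e : ℕ → ℝ} (he : ∀ n, 0 < e n) (h0 : Tendsto e atTop (𝓝 0)) :
    Tendsto (fun n => ∫ y, 3 * e n ^ 2 / ss (e n) x y ^ 5 * V y) atTop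
      (𝓝 (4 * Real.pi * V x)) := by
  have e1 : ∀ n, ∫ y, 3 * e n ^ 2 / ss (e n) x y ^ 5 * V y =
      ∫ z, prof ‖z‖ * V (x + e n • z) := fun n => integral_approx_eq (he n) x V
  simp only [e1]
  have e2 : 4 * Real.pi * V x = ∫ z : R3, prof ‖z‖ * V x := by
    rw [integral_mul_const, integral_prof3]
  rw [e2]
  have hm : Measurable (fun z : R3 => prof ‖z‖) := by unfold prof; fun_prop
  refine tendsto_integral_of_dominated_convergence (fun z => prof ‖z‖ * C) ?_ ?_ ?_ ?_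
  · intro n
    exact (hm.mul (hV.comp (by fun_prop))).aestronglyMeasurable
  · exact integrable_prof.mul_const C
  · intro n
    refine ae_of_all _ fun z => ?_
    have : 0 ≤ prof ‖z‖ := by unfold prof; positivity
    rw [norm_mul, Real.norm_eq_abs, Real.norm_eq_abs, abs_of_nonneg this]
    exact mul_le_mul_of_nonneg_left (hC _) this
  · refine ae_of_all _ fun z => ?_
    apply Tendsto.mul tendsto_const_nhds
    have h2 : Tendsto (fun n => x + e n • z) atTop (𝓝 x) := by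
      have := (h0.smul_const z).const_add x
      simpa using this
    exact hx.tendsto.comp h2

/-! ### integrable majorants -/

lemma integrableOn_one_add_sq : IntegrableOn (fun r : ℝ => 1 / (1 + r) ^ 2) (Ioi 0) := by
  have h := integrable_one_add_norm (E := ℝ) (μ := volume) (r := 2) (by simp)
  refine (h.integrableOn (s := Ioi 0)).congr_fun ?_ measurableSet_Ioi
  intro r hr
  have : 0 < r := hr
  simp only [Real.norm_eq_abs, abs_of_pos this]
  rw [Real.rpow_neg (by positivity)]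
  norm_cast
  simp

lemma integrable_maj : Integrable (fun y : R3 => 1 / (‖y‖ ^ 2 * (1 + ‖y‖) ^ 2)) := by
  rw [integrable_radial (F := fun r => 1 / (r ^ 2 * (1 + r) ^ 2))]
  refine integrableOn_one_add_sq.congr_fun ?_ measurableSet_Ioi
  intro r hr
  have : 0 < r := hr
  simp only
  field_simp

lemma integrable_maj_sub (x : R3) :
    Integrable (fun y : R3 => 1 / (‖x - y‖ ^ 2 * (1 + ‖x - y‖) ^ 2)) := by
  have h := integrable_maj.comp_sub_left x
  exact h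

lemma one_add_norm_le_mul (x y : R3) : 1 + ‖x - y‖ ≤ (1 + ‖x‖) * (1 + ‖y‖) := by
  have := norm_sub_le x y
  nlinarith [norm_nonneg x, norm_nonneg y, mul_nonneg (norm_nonneg x) (norm_nonneg y)]

/-- the Coulomb-type majorant -/
lemma integrable_maj_prod (x : R3) :
    Integrable (fun y : R3 => 1 / (‖y‖ * (1 + ‖y‖) ^ 2 * ‖x - y‖)) := by
  have h1 := integrable_maj.add ((integrable_maj_sub x).const_mul ((1 + ‖x‖) ^ 2))
  refine h1.mono' (Measurable.aestronglyMeasurable (by fun_prop)) ?_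
  have hne : ∀ᵐ y : R3, y ≠ 0 ∧ x - y ≠ 0 := by
    have a1 : ∀ᵐ y : R3, y ≠ 0 := by
      rw [ae_iff]; simp
    have a2 : ∀ᵐ y : R3, y ≠ x := by
      rw [ae_iff]; simp
    filter_upwards [a1, a2] with y h1 h2
    exact ⟨h1, sub_ne_zero.2 (Ne.symm h2)⟩
  filter_upwards [hne] with y hy
  have p1 : 0 < ‖y‖ := norm_pos_iff.2 hy.1
  have p2 : 0 < ‖x - y‖ := norm_pos_iff.2 hy.2
  have p3 := one_add_norm_le_mul x y
  rw [Real.norm_of_nonneg (by positivity)]
  simp only [Pi.add_apply]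
  have b1 : 1 / (‖y‖ * (1 + ‖y‖) ^ 2 * ‖x - y‖) ≤
      1 / (‖y‖ ^ 2 * (1 + ‖y‖) ^ 2) + 1 / (‖x - y‖ ^ 2 * (1 + ‖y‖) ^ 2) := by
    have : 1 / (‖y‖ * (1 + ‖y‖) ^ 2 * ‖x - y‖) = (1 / ‖y‖) * (1 / ‖x - y‖) * (1 / (1 + ‖y‖) ^ 2) := by
      field_simp
    rw [this]
    have : 1 / (‖y‖ ^ 2 * (1 + ‖y‖) ^ 2) + 1 / (‖x - y‖ ^ 2 * (1 + ‖y‖) ^ 2) =
      ((1 / ‖y‖) ^ 2 + (1 / ‖x - y‖) ^ 2) * (1 / (1 + ‖y‖) ^ 2) := by
      field_simp
    rw [this]
    apply mul_le_mul_of_nonneg_right _ (by positivity)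
    nlinarith [sq_nonneg (1 / ‖y‖ - 1 / ‖x - y‖), sq_nonneg (1 / ‖y‖), sq_nonneg (1 / ‖x - y‖)]
  refine b1.trans (add_le_add le_rfl ?_)
  rw [← mul_div_assoc, mul_one, div_le_div_iff₀ (by positivity) (by positivity)]
  have : (1 + ‖x - y‖) ^ 2 ≤ ((1 + ‖x‖) * (1 + ‖y‖)) ^ 2 :=
    pow_le_pow_left₀ (by positivity) p3 2
  nlinarith [sq_nonneg ‖x - y‖, mul_le_mul_of_nonneg_left this (sq_nonneg ‖x - y‖)]

end

end Vale.Agent.P363.R.H10
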