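import Vale.Agent.P363.R.H10.Grad

/-! Polynomials times exponentials: decay, radial data, integrals. -/

namespace Vale.Agent.P363.R.H10

open MeasureTheory Measure Module Topology Filter Set
open Vale.Agent.P363.Stmt

noncomputable section

lemma pow_exp_int (n : ℕ) {a : ℝ} (ha : 0 < a) :
    IntegrableOn (fun r : ℝ => r ^ n * Real.exp (-a * r)) (Ioi 0) ∧
      ∫ r in Ioi (0 : ℝ), r ^ n * Real.exp (-a * r) = n.factorial / a ^ (n + 1) := by
  constructor
  · have h := integrableOn_rpow_mul_exp_neg_mul_rpow (p := 1) (s := n) (b := a)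
      (by have : (0 : ℝ) ≤ n := Nat.cast_nonneg n; linarith) one_pos ha
    refine h.congr_fun (fun r hr => ?_) measurableSet_Ioi
    simp
  · have h := Real.integral_rpow_mul_exp_neg_mul_Ioi (a := (n : ℝ) + 1) (r := a) (by positivity) ha
    have e : ∫ r in Ioi (0 : ℝ), r ^ n * Real.exp (-a * r) =
        ∫ t in Ioi (0 : ℝ), t ^ ((n : ℝ) + 1 - 1) * Real.exp (-(a * t)) := by
      refine setIntegral_congr_fun measurableSet_Ioi fun r hr => ?_
      simp
    rw [e, h, Real.Gamma_nat_eq_factorial]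
    rw [show ((n : ℝ) + 1) = ((n + 1 : ℕ) : ℝ) by push_cast; ring, Real.rpow_natCast, div_pow,
      one_pow]
    field_simp

lemma poly_exp_int {n : ℕ} (c : Fin n → ℝ) {a : ℝ} (ha : 0 < a) :
    IntegrableOn (fun r : ℝ => (∑ i, c i * r ^ (i : ℕ)) * Real.exp (-a * r)) (Ioi 0) ∧
      ∫ r in Ioi (0 : ℝ), (∑ i, c i * r ^ (i : ℕ)) * Real.exp (-a * r) =
        ∑ i, c i * ((i : ℕ).factorial / a ^ ((i : ℕ) + 1)) := by
  have e : (fun r : ℝ => (∑ i, c i * r ^ (i : ℕ)) * Real.exp (-a * r)) =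
      fun r => ∑ i, c i * (r ^ (i : ℕ) * Real.exp (-a * r)) := by
    ext r; rw [Finset.sum_mul]; simp only [mul_assoc]
  have hi : ∀ i : Fin n, IntegrableOn (fun r : ℝ => c i * (r ^ (i : ℕ) * Real.exp (-a * r)))
      (Ioi 0) := fun i => (pow_exp_int _ ha).1.const_mul _
  rw [e]
  constructor
  · exact integrable_finsetSum _ fun i _ => hi i
  · rw [integral_finsetSum _ fun i _ => hi i]
    refine Finset.sum_congr rfl fun i _ => ?_
    rw [integral_const_mul, (pow_exp_int _ ha).2]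

/-- integral of a difference of two exponential polynomials -/
lemma int_two {n m : ℕ} {a b : ℝ} (ha : 0 < a) (hb : 0 < b) (c : Fin n → ℝ) (d : Fin m → ℝ)
    {F : ℝ → ℝ} (hF : ∀ r, 0 < r → F r = (∑ i, c i * r ^ (i : ℕ)) * Real.exp (-a * r) -
      (∑ i, d i * r ^ (i : ℕ)) * Real.exp (-b * r)) :
    ∫ r in Ioi (0 : ℝ), F r = (∑ i, c i * ((i : ℕ).factorial / a ^ ((i : ℕ) + 1))) -
      ∑ i, d i * ((i : ℕ).factorial / b ^ ((i : ℕ) + 1)) := by
  have e : ∫ r in Ioi (0 : ℝ), F r = ∫ r in Ioi (0 : ℝ),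
      ((∑ i, c i * r ^ (i : ℕ)) * Real.exp (-a * r) -
      (∑ i, d i * r ^ (i : ℕ)) * Real.exp (-b * r)) :=
    setIntegral_congr_fun measurableSet_Ioi fun r hr => hF r hr
  rw [e, integral_sub (poly_exp_int c ha).1 (poly_exp_int d hb).1, (poly_exp_int c ha).2,
    (poly_exp_int d hb).2]

lemma int_one {n : ℕ} {a : ℝ} (ha : 0 < a) (c : Fin n → ℝ)
    {F : ℝ → ℝ} (hF : ∀ r, 0 < r → F r = (∑ i, c i * r ^ (i : ℕ)) * Real.exp (-a * r)) :
    ∫ r in Ioi (0 : ℝ), F r = (∑ i, c i * ((i : ℕ).factorial / a ^ ((i : ℕ) + 1))) := by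
  have e : ∫ r in Ioi (0 : ℝ), F r = ∫ r in Ioi (0 : ℝ),
      ((∑ i, c i * r ^ (i : ℕ)) * Real.exp (-a * r)) :=
    setIntegral_congr_fun measurableSet_Ioi fun r hr => hF r hr
  rw [e, (poly_exp_int c ha).2]

/-- exponential decay beats polynomials -/
lemma pow_mul_exp_le (n : ℕ) {a : ℝ} (ha : 0 < a) :
    ∃ C, 0 ≤ C ∧ ∀ r : ℝ, 0 ≤ r → (1 + r) ^ n * Real.exp (-a * r) ≤ C := by
  refine ⟨n.factorial / a ^ n * Real.exp a, by positivity, fun r hr => ?_⟩
  have h1 : (a * (1 + r)) ^ n / n.factorial ≤ Real.exp (a * (1 + r)) :=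
    Real.pow_div_factorial_le_exp _ (by positivity) n
  have h2 : (1 + r) ^ n ≤ n.factorial / a ^ n * Real.exp (a * (1 + r)) := by
    rw [div_le_iff₀ (by positivity), mul_pow] at h1
    rw [div_mul_eq_mul_div, le_div_iff₀ (by positivity)]
    linarith
  calc (1 + r) ^ n * Real.exp (-a * r)
      ≤ n.factorial / a ^ n * Real.exp (a * (1 + r)) * Real.exp (-a * r) :=
        mul_le_mul_of_nonneg_right h2 (Real.exp_pos _).le
    _ = n.factorial / a ^ n * Real.exp a := by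
        rw [mul_assoc, ← Real.exp_add]; congr 2; ring

lemma dec_poly_exp {n : ℕ} (c : Fin n → ℝ) {a : ℝ} (ha : 0 < a) :
    Dec (fun r : ℝ => (∑ i, c i * r ^ (i : ℕ)) * Real.exp (-a * r)) := by
  intro m
  obtain ⟨C, hC, hb⟩ := pow_mul_exp_le (m + n) ha
  refine ⟨(∑ i, |c i|) * C, fun r hr => ?_⟩
  rw [le_div_iff₀ (by positivity), abs_mul, abs_of_pos (Real.exp_pos _)]
  have h1 : |∑ i, c i * r ^ (i : ℕ)| ≤ (∑ i, |c i|) * (1 + r) ^ n := by
    refine (Finset.abs_sum_le_sum_abs _ _).trans ?_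
    rw [Finset.sum_mul]
    refine Finset.sum_le_sum fun i _ => ?_
    rw [abs_mul, abs_pow, abs_of_nonneg hr]
    refine mul_le_mul_of_nonneg_left ?_ (abs_nonneg _)
    calc r ^ (i : ℕ) ≤ (1 + r) ^ (i : ℕ) := pow_le_pow_left₀ hr (by linarith) _
      _ ≤ (1 + r) ^ n := pow_le_pow_right₀ (by linarith) i.2.le
  have h0 : 0 ≤ ∑ i, |c i| := Finset.sum_nonneg fun i _ => abs_nonneg _
  calc |∑ i, c i * r ^ (i : ℕ)| * Real.exp (-a * r) * (1 + r) ^ m
      ≤ (∑ i, |c i|) * (1 + r) ^ n * Real.exp (-a * r) * (1 + r) ^ m := by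
        apply mul_le_mul_of_nonneg_right _ (by positivity)
        exact mul_le_mul_of_nonneg_right h1 (Real.exp_pos _).le
    _ = (∑ i, |c i|) * ((1 + r) ^ (m + n) * Real.exp (-a * r)) := by rw [pow_add]; ring
    _ ≤ _ := mul_le_mul_of_nonneg_left (hb r hr) h0

/-- cubic times exponential -/
def ce (a c0 c1 c2 c3 r : ℝ) : ℝ := (c0 + c1 * r + c2 * r ^ 2 + c3 * r ^ 3) * Real.exp (-a * r)

lemma ce_eq (a c0 c1 c2 c3 : ℝ) : ce a c0 c1 c2 c3 =
    fun r : ℝ => (∑ i, ![c0, c1, c2, c3] i * r ^ (i : ℕ)) * Real.exp (-a * r) := by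
  ext r
  simp [ce, Fin.sum_univ_succ]
  ring

lemma dec_ce {a : ℝ} (ha : 0 < a) (c0 c1 c2 c3 : ℝ) : Dec (ce a c0 c1 c2 c3) := by
  rw [ce_eq]; exact dec_poly_exp _ ha

lemma hasDerivAt_ce (a c0 c1 c2 c3 r : ℝ) :
    HasDerivAt (ce a c0 c1 c2 c3) (ce a (c1 - a * c0) (2 * c2 - a * c1) (3 * c3 - a * c2)
      (-a * c3) r) r := by
  have h1 : HasDerivAt (fun r : ℝ => c0 + c1 * r + c2 * r ^ 2 + c3 * r ^ 3)
      (c1 + 2 * c2 * r + 3 * c3 * r ^ 2) r := by
    have := ((((hasDerivAt_id r).const_mul c1).const_add c0).add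
      ((hasDerivAt_pow 2 r).const_mul c2)).add ((hasDerivAt_pow 3 r).const_mul c3)
    convert! this using 1
    push_cast
    ring
  have h2 : HasDerivAt (fun r : ℝ => Real.exp (-a * r)) (Real.exp (-a * r) * (-a)) r := by
    have := ((hasDerivAt_id r).const_mul (-a)).exp
    convert! this using 1
    simp
  convert! h1.mul h2 using 1
  simp only [ce]
  ring

lemma rad_ce {a : ℝ} (ha : 0 < a) (c0 c1 c2 c3 : ℝ) :
    Rad (ce a c0 c1 c2 c3)
      (ce a (c1 - a * c0) (2 * c2 - a * c1) (3 * c3 - a * c2) (-a * c3))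
      (ce a ((2 * c2 - a * c1) - a * (c1 - a * c0)) (2 * (3 * c3 - a * c2) - a * (2 * c2 - a * c1))
        (3 * (-a * c3) - a * (3 * c3 - a * c2)) (-a * (-a * c3))) where
  d1 := hasDerivAt_ce _ _ _ _ _
  d2 := hasDerivAt_ce _ _ _ _ _
  c2 := by unfold ce; fun_prop
  dec := dec_ce ha _ _ _ _
  dec1 := dec_ce ha _ _ _ _
  dec2 := dec_ce ha _ _ _ _

/-- Coulomb energy of a radial function with a radial density given by its data. -/
lemma DD_rad_rad {g g1 g2 : ℝ → ℝ} (h : Rad g g1 g2) (F : ℝ → ℝ) :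
    DD (fun x => F ‖x‖) (fun y => g2 ‖y‖ / ‖y‖) =
      16 * Real.pi ^ 2 * ∫ r in Ioi (0 : ℝ), r * F r * (g 0 - g r) := by
  rw [DD_radial h, integral_radial (F := fun r => F r * VV g r)]
  have : ∫ r in Ioi (0 : ℝ), r ^ 2 * (F r * VV g r) =
      ∫ r in Ioi (0 : ℝ), r * F r * (g 0 - g r) := by
    refine setIntegral_congr_fun measurableSet_Ioi fun r hr => ?_
    have : (0 : ℝ) < r := hr
    simp only [VV]
    field_simp
  rw [this]
  ring

lemma DD_congr {u u' w w' : R3 → ℝ} (hu : ∀ x, x ≠ 0 → u x = u' x) (hw : ∀ x, x ≠ 0 → w x = w' x) :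
    DD u w = DD u' w' := by
  unfold DD
  refine integral_congr_ae ?_
  filter_upwards [ae_ne_zero] with x hx
  refine integral_congr_ae ?_
  filter_upwards [ae_ne_zero] with y hy
  rw [hu x hx, hw y hy]

/-- Coulomb energy of two radial functions of exponential-polynomial type, second one
determined by `g = (c0 + c1 r + c2 r² + c3 r³) e^{-a r}`, `w = g''/r`. -/
lemma DD_ce {a : ℝ} (ha : 0 < a) (c0 c1 c2 c3 : ℝ) (F G : ℝ → ℝ)
    (hG : ∀ r, 0 < r → r * G r = (((2 * c2 - a * c1) - a * (c1 - a * c0)) +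
      (2 * (3 * c3 - a * c2) - a * (2 * c2 - a * c1)) * r +
      (3 * (-a * c3) - a * (3 * c3 - a * c2)) * r ^ 2 + (-a * (-a * c3)) * r ^ 3) *
        Real.exp (-a * r)) :
    DD (fun x => F ‖x‖) (fun y => G ‖y‖) =
      16 * Real.pi ^ 2 * ∫ r in Ioi (0 : ℝ), r * F r * (c0 - (c0 + c1 * r + c2 * r ^ 2 +
        c3 * r ^ 3) * Real.exp (-a * r)) := by
  have h := DD_rad_rad (rad_ce ha c0 c1 c2 c3) F
  have e0 : ce a c0 c1 c2 c3 0 = c0 := by simp [ce]
  rw [e0] at h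
  refine Eq.trans ?_ h
  refine DD_congr (fun x _ => rfl) (fun y hy => ?_)
  have hn : 0 < ‖y‖ := norm_pos_iff.2 hy
  rw [eq_div_iff hn.ne', mul_comm, hG ‖y‖ hn, ce]

end

end Vale.Agent.P363.R.H10
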