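import Vale.Agent.P363.R.H10.Newton

/-! The Coulomb form `D(u,w) = ∬ u(x) w(y) / |x-y|` on rapidly decaying functions and the
gradient identity `∑ᵢ D(∂ᵢ f, ∂ᵢ f) = 4π ∫ f²`. -/

namespace Vale.Agent.P363.R.H10

open MeasureTheory Measure Module Topology Filter Set
open Vale.Agent.P363.Stmt

noncomputable section

/-- Coulomb form -/
def DD (u w : R3 → ℝ) : ℝ := ∫ x, ∫ y, u x * w y / ‖x - y‖

/-- bounded measurable functions with decay -/
structure Nice (u : R3 → ℝ) : Prop where
  meas : Measurable u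
  bd : ∃ C, 0 ≤ C ∧ ∀ x, |u x| ≤ C / (1 + ‖x‖) ^ 6

lemma integrable_pow6 : Integrable (fun x : R3 => 1 / (1 + ‖x‖) ^ 6) := by
  have h := integrable_one_add_norm (E := R3) (μ := volume) (r := 6) (by simp; norm_num)
  refine h.congr (ae_of_all _ fun x => ?_)
  simp only
  rw [Real.rpow_neg (by positivity)]
  norm_cast
  simp

lemma integrable_pow4 : Integrable (fun x : R3 => 1 / (1 + ‖x‖) ^ 4) := by
  have h := integrable_one_add_norm (E := R3) (μ := volume) (r := 4) (by simp; norm_num)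
  refine h.congr (ae_of_all _ fun x => ?_)
  simp only
  rw [Real.rpow_neg (by positivity)]
  norm_cast
  simp

lemma Nice.integrable {u : R3 → ℝ} (h : Nice u) : Integrable u := by
  obtain ⟨C, hC, hb⟩ := h.bd
  refine (integrable_pow6.const_mul C).mono' h.meas.aestronglyMeasurable (ae_of_all _ fun x => ?_)
  simpa [div_eq_mul_inv] using hb x

/-- Coulomb majorant on the product -/
lemma integrable_maj2 : Integrable (fun p : R3 × R3 =>
    1 / (1 + ‖p.1‖) ^ 6 * (1 / (1 + ‖p.2‖) ^ 6) / ‖p.1 - p.2‖) (volume.prod volume) := by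
  have i1 : Integrable (fun p : R3 × R3 => 1 / (1 + ‖p.1‖) ^ 6 * (1 / (‖p.2‖ ^ 2 * (1 + ‖p.2‖) ^ 2)))
      (volume.prod volume) := integrable_pow6.mul_prod integrable_maj
  have i2 : Integrable (fun p : R3 × R3 =>
      1 / (1 + ‖p.2‖) ^ 4 * (1 / (‖p.1 - p.2‖ ^ 2 * (1 + ‖p.1 - p.2‖) ^ 2)))
      (volume.prod volume) :=
    Integrable.convolution_integrand (ContinuousLinearMap.mul ℝ ℝ) integrable_pow4 integrable_maj
  have i3 := i2.swap
  refine (i1.add i3).mono' (Measurable.aestronglyMeasurable (by fun_prop)) ?_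
  have hne : ∀ᵐ p : R3 × R3 ∂(volume.prod volume), p.2 ≠ 0 ∧ p.1 - p.2 ≠ 0 := by
    have a1 : ∀ᵐ p : R3 × R3 ∂(volume.prod volume), p.2 ≠ 0 :=
      Measure.quasiMeasurePreserving_snd.ae ae_ne_zero
    have a2 : ∀ᵐ p : R3 × R3 ∂(volume.prod volume), p.1 - p.2 ≠ 0 := by
      have := (quasiMeasurePreserving_sub (volume : Measure R3) volume).ae ae_ne_zero
      exact this
    filter_upwards [a1, a2] with p h1 h2
    exact ⟨h1, h2⟩
  filter_upwards [hne] with p hp
  obtain ⟨x, y⟩ := p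
  simp only at hp
  have p1 : 0 < ‖y‖ := norm_pos_iff.2 hp.1
  have p2 : 0 < ‖x - y‖ := norm_pos_iff.2 hp.2
  have p3 : 1 + ‖y - x‖ ≤ (1 + ‖y‖) * (1 + ‖x‖) := one_add_norm_le_mul y x
  rw [Real.norm_of_nonneg (by positivity)]
  simp only [Pi.add_apply, Function.comp_apply, Prod.swap_prod_mk]
  rw [norm_sub_rev y x] at *
  set a := ‖x‖ with ha
  set b := ‖y‖ with hb
  set d := ‖x - y‖ with hd
  have ha0 : 0 ≤ a := norm_nonneg _
  have b1 : 1 / (1 + b) ^ 6 / d ≤ 1 / (b ^ 2 * (1 + b) ^ 2) + 1 / (d ^ 2 * (1 + b) ^ 2) := by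
    have e1 : 1 / (1 + b) ^ 6 / d ≤ 1 / (b * (1 + b) ^ 2 * d) := by
      rw [div_div]
      apply one_div_le_one_div_of_le (by positivity)
      apply mul_le_mul_of_nonneg_right _ p2.le
      calc b * (1 + b) ^ 2 ≤ (1 + b) * (1 + b) ^ 2 := by gcongr; linarith
        _ = (1 + b) ^ 3 := by ring
        _ ≤ (1 + b) ^ 6 := pow_le_pow_right₀ (by linarith) (by norm_num)
    have e2 : 1 / (b * (1 + b) ^ 2 * d) = (1 / b) * (1 / d) * (1 / (1 + b) ^ 2) := by
      field_simp
    have e3 : 1 / (b ^ 2 * (1 + b) ^ 2) + 1 / (d ^ 2 * (1 + b) ^ 2) =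
      ((1 / b) ^ 2 + (1 / d) ^ 2) * (1 / (1 + b) ^ 2) := by
      field_simp
    refine e1.trans ?_
    rw [e2, e3]
    apply mul_le_mul_of_nonneg_right _ (by positivity)
    nlinarith [sq_nonneg (1 / b - 1 / d), sq_nonneg (1 / b), sq_nonneg (1 / d)]
  have b2 : 1 / (d ^ 2 * (1 + b) ^ 2) ≤ (1 + a) ^ 2 * (1 / (d ^ 2 * (1 + d) ^ 2)) := by
    rw [← mul_div_assoc, mul_one, div_le_div_iff₀ (by positivity) (by positivity)]
    have : (1 + d) ^ 2 ≤ ((1 + b) * (1 + a)) ^ 2 := pow_le_pow_left₀ (by positivity) p3 2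
    nlinarith [sq_nonneg d, mul_le_mul_of_nonneg_left this (sq_nonneg d)]
  calc 1 / (1 + a) ^ 6 * (1 / (1 + b) ^ 6) / d = 1 / (1 + a) ^ 6 * (1 / (1 + b) ^ 6 / d) := by ring
    _ ≤ 1 / (1 + a) ^ 6 * (1 / (b ^ 2 * (1 + b) ^ 2) + (1 + a) ^ 2 * (1 / (d ^ 2 * (1 + d) ^ 2))) :=
        mul_le_mul_of_nonneg_left (b1.trans (add_le_add le_rfl b2)) (by positivity)
    _ = _ := by field_simp

/-- integrability of Coulomb integrands -/
lemma Nice.integrable_DD {u w : R3 → ℝ} (hu : Nice u) (hw : Nice w) :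
    Integrable (fun p : R3 × R3 => u p.1 * w p.2 / ‖p.1 - p.2‖) (volume.prod volume) := by
  obtain ⟨C, hC, hb⟩ := hu.bd
  obtain ⟨C', hC', hb'⟩ := hw.bd
  have m1 := hu.meas
  have m2 := hw.meas
  refine (integrable_maj2.const_mul (C * C')).mono'
    (Measurable.aestronglyMeasurable (by fun_prop)) (ae_of_all _ fun p => ?_)
  rw [norm_div, norm_mul, Real.norm_eq_abs, Real.norm_eq_abs, Real.norm_of_nonneg (norm_nonneg _)]
  have : C * C' * (1 / (1 + ‖p.1‖) ^ 6 * (1 / (1 + ‖p.2‖) ^ 6) / ‖p.1 - p.2‖) =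
      (C / (1 + ‖p.1‖) ^ 6) * (C' / (1 + ‖p.2‖) ^ 6) / ‖p.1 - p.2‖ := by ring
  rw [this]
  apply div_le_div_of_nonneg_right _ (norm_nonneg _)
  exact mul_le_mul (hb _) (hb' _) (abs_nonneg _) (by positivity)

lemma Nice.mul_bdd {u w : R3 → ℝ} (hu : Nice u) (mw : Measurable w) (C : ℝ)
    (hw : ∀ x, |w x| ≤ C) : Integrable (fun x => u x * w x) :=
  (hu.integrable.mul_bdd (c := C) mw.aestronglyMeasurable (ae_of_all _ hw))

/-- function with derivatives off the origin, all decaying -/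
structure Smo (f : R3 → ℝ) (f' : Fin 3 → R3 → ℝ) : Prop where
  nice : Nice f
  nice' : ∀ i, Nice (f' i)
  cont : Continuous f
  der : ∀ i, ∀ y, y ≠ 0 → HasLineDerivAt ℝ f (f' i y) y (ei i)

lemma Nice.tendsto {u : R3 → ℝ} (h : Nice u) : Tendsto u (cocompact R3) (𝓝 0) := by
  obtain ⟨C, hC, hb⟩ := h.bd
  have ht : Tendsto (fun y : R3 => C / (1 + ‖y‖)) (cocompact R3) (𝓝 0) := by
    apply Tendsto.div_atTop tendsto_const_nhds
    exact tendsto_atTop_add_const_left _ _ (tendsto_norm_cocompact_atTop)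
  refine squeeze_zero_norm (fun y => ?_) ht
  refine (hb y).trans ?_
  apply div_le_div_of_nonneg_left hC (by positivity)
  have : (1 : ℝ) ≤ 1 + ‖y‖ := by linarith [norm_nonneg y]
  calc 1 + ‖y‖ = (1 + ‖y‖) ^ 1 := by ring
    _ ≤ (1 + ‖y‖) ^ 6 := pow_le_pow_right₀ this (by norm_num)

/-- integration by parts against a bounded smooth function -/
lemma Smo.parts {f : R3 → ℝ} {f' : Fin 3 → R3 → ℝ} (h : Smo f f') {K K' : R3 → ℝ} (i : Fin 3)
    (mK : Measurable K) (mK' : Measurable K') {C : ℝ} (bK : ∀ y, |K y| ≤ C)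
    (bK' : ∀ y, |K' y| ≤ C) (dK : ∀ y, HasLineDerivAt ℝ K (K' y) y (ei i)) :
    ∫ y, f' i y * K y = - ∫ y, f y * K' y := by
  have i1 := (h.nice' i).mul_bdd mK C bK
  have i2 := h.nice.mul_bdd mK' C bK'
  have hz : ∫ y, (f' i y * K y + f y * K' y) = 0 := by
    refine integral_lineDeriv_zero (f := fun y => f y * K y) (v := ei i)
      (by rw [finrank_R3]; norm_num) (i1.add i2) (fun y hy => ?_) ?_
    · exact HasLineDerivAt.mul' (h.der i y hy) (dK y)
    · have := h.nice.tendsto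
      refine squeeze_zero_norm (a := fun y => |f y| * C) (fun y => ?_) ?_
      · rw [norm_mul]
        exact mul_le_mul_of_nonneg_left (bK y) (abs_nonneg _)
      · simpa using (this.abs).mul_const C
  rw [integral_add i1 i2] at hz
  linarith

lemma ss_comm (e : ℝ) (x y : R3) : ss e x y = ss e y x := by
  rw [ss, ss, norm_sub_rev]

lemma abs_kk_le {e : ℝ} (he : 0 < e) (x y : R3) : |kk e x y| ≤ 1 / e := by
  rw [kk, abs_of_nonneg (by have := ss_nonneg e x y; positivity)]
  exact one_div_le_one_div_of_le he (le_ss he.le x y)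

lemma abs_kk1_le' {e : ℝ} (he : 0 < e) (x y : R3) (i : Fin 3) : |kk1 e x i y| ≤ (1 / e) ^ 2 := by
  refine (abs_kk1_le he x y i).trans ?_
  have := ss_pos he x y
  exact pow_le_pow_left₀ (by positivity) (one_div_le_one_div_of_le he (le_ss he.le x y)) 2

lemma abs_kk2_le' {e : ℝ} (he : 0 < e) (x y : R3) (i : Fin 3) :
    |kk2 e x i y| ≤ 4 * (1 / e) ^ 3 := by
  refine (abs_kk2_le he x y i).trans ?_
  have := ss_pos he x y
  refine mul_le_mul_of_nonneg_left ?_ (by norm_num)
  exact pow_le_pow_left₀ (by positivity) (one_div_le_one_div_of_le he (le_ss he.le x y)) 3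

/-- regularised form -/
def De (e : ℝ) (u w : R3 → ℝ) : ℝ := ∫ x, u x * ∫ y, w y * kk e x y

lemma De_grad {f : R3 → ℝ} {f' : Fin 3 → R3 → ℝ} (h : Smo f f') {e : ℝ} (he : 0 < e) (i : Fin 3) :
    De e (f' i) (f' i) = - ∫ y, f y * ∫ x, f x * kk2 e y i x := by
  have b1 : ∀ a y, |kk e a y| ≤ max (1 / e) (max ((1 / e) ^ 2) (4 * (1 / e) ^ 3)) :=
    fun a y => (abs_kk_le he a y).trans (le_max_left _ _)
  have b2 : ∀ a y, |kk1 e a i y| ≤ max (1 / e) (max ((1 / e) ^ 2) (4 * (1 / e) ^ 3)) :=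
    fun a y => (abs_kk1_le' he a y i).trans ((le_max_left _ _).trans (le_max_right _ _))
  have b3 : ∀ a y, |kk2 e a i y| ≤ max (1 / e) (max ((1 / e) ^ 2) (4 * (1 / e) ^ 3)) :=
    fun a y => (abs_kk2_le' he a y i).trans ((le_max_right _ _).trans (le_max_right _ _))
  have s1 : ∀ x, ∫ y, f' i y * kk e x y = - ∫ y, f y * kk1 e x i y := fun x =>
    h.parts i (measurable_kk e x) (measurable_kk1 e x i) (b1 x) (b2 x)
      (fun y => hasLineDerivAt_kk (ss_pos he x y) i)
  have s2 : ∀ y, ∫ x, f' i x * kk1 e y i x = - ∫ x, f x * kk2 e y i x := fun y =>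
    h.parts i (measurable_kk1 e y i) (measurable_kk2 e y i) (b2 y) (b3 y)
      (fun x => hasLineDerivAt_kk1 (ss_pos he y x) i)
  have s3 : ∀ x y : R3, kk1 e x i y = - kk1 e y i x := by
    intro x y
    simp only [kk1]
    rw [ss_comm e x y]
    ring
  have mfx := (h.nice' i).meas
  have mf := h.nice.meas
  have hm : Measurable (fun p : R3 × R3 => ss e p.1 p.2) := by
    have : Continuous (fun p : R3 × R3 => ss e p.1 p.2) := by unfold ss; fun_prop
    exact this.measurable
  have hI : Integrable (fun p : R3 × R3 => f' i p.1 * (f p.2 * kk1 e p.1 i p.2))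
      (volume.prod volume) := by
    have j1 : Integrable (fun p : R3 × R3 => f' i p.1 * f p.2) (volume.prod volume) :=
      (h.nice' i).integrable.mul_prod h.nice.integrable
    have m : Measurable (fun p : R3 × R3 => kk1 e p.1 i p.2) := by
      unfold kk1
      fun_prop
    have := j1.mul_bdd (c := max (1 / e) (max ((1 / e) ^ 2) (4 * (1 / e) ^ 3)))
      m.aestronglyMeasurable (ae_of_all _ fun p => b2 p.1 p.2)
    refine this.congr (ae_of_all _ fun p => ?_)
    simp only; ring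
  calc De e (f' i) (f' i) = - ∫ x, f' i x * ∫ y, f y * kk1 e x i y := by
        rw [De, ← integral_neg]
        congr 1; ext x; rw [s1 x]; ring
    _ = - ∫ x, ∫ y, f' i x * (f y * kk1 e x i y) := by
        simp only [integral_const_mul]
    _ = - ∫ y, ∫ x, f' i x * (f y * kk1 e x i y) := by
        rw [integral_integral_swap hI]
    _ = ∫ y, f y * ∫ x, f' i x * kk1 e y i x := by
        rw [← integral_neg]
        congr 1; ext y
        rw [← integral_const_mul, ← integral_neg]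
        congr 1; ext x
        rw [s3 x y]; ring
    _ = _ := by
        rw [← integral_neg]
        congr 1; ext y; rw [s2 y]; ring

lemma De_sum {f : R3 → ℝ} {f' : Fin 3 → R3 → ℝ} (h : Smo f f') {e : ℝ} (he : 0 < e) :
    De e (f' 0) (f' 0) + De e (f' 1) (f' 1) + De e (f' 2) (f' 2) =
      ∫ y, f y * ∫ x, 3 * e ^ 2 / ss e y x ^ 5 * f x := by
  rw [De_grad h he 0, De_grad h he 1, De_grad h he 2]
  have hm : Measurable (fun p : R3 × R3 => ss e p.1 p.2) := by
    have : Continuous (fun p : R3 × R3 => ss e p.1 p.2) := by unfold ss; fun_prop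
    exact this.measurable
  have mf := h.nice.meas
  have hI : ∀ i : Fin 3, Integrable (fun y => f y * ∫ x, f x * kk2 e y i x) := by
    intro i
    have j1 : Integrable (fun p : R3 × R3 => f p.1 * f p.2) (volume.prod volume) :=
      h.nice.integrable.mul_prod h.nice.integrable
    have m : Measurable (fun p : R3 × R3 => kk2 e p.1 i p.2) := by
      unfold kk2
      fun_prop
    have := j1.mul_bdd (c := 4 * (1 / e) ^ 3)
      m.aestronglyMeasurable (ae_of_all _ fun p => abs_kk2_le' he p.1 p.2 i)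
    have := this.integral_prod_left
    refine this.congr (ae_of_all _ fun y => ?_)
    simp only [mul_assoc]
    rw [integral_const_mul]
  have q1 := integral_add (hI 0) (hI 1)
  have q2 := integral_add ((hI 0).add (hI 1)) (hI 2)
  simp only [Pi.add_apply] at q1 q2
  have q3 : ∀ a b c : ℝ, -a + -b + -c = -(a + b + c) := fun a b c => by ring
  rw [q3, ← q1, ← q2, ← integral_neg]
  congr 1
  ext y
  have k : ∀ i : Fin 3, Integrable (fun x => f x * kk2 e y i x) := fun i =>
    h.nice.mul_bdd (measurable_kk2 e y i) (4 * (1 / e) ^ 3) (fun x => abs_kk2_le' he y x i)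
  have e1 : ∫ x, 3 * e ^ 2 / ss e y x ^ 5 * f x =
      - ((∫ x, f x * kk2 e y 0 x) + (∫ x, f x * kk2 e y 1 x) + ∫ x, f x * kk2 e y 2 x) := by
    have q1 := integral_add (k 0) (k 1)
    have q2 := integral_add ((k 0).add (k 1)) (k 2)
    simp only [Pi.add_apply] at q1 q2
    rw [← q1, ← q2, ← integral_neg]
    congr 1; ext x
    have := sum_kk2 (ss_pos he y x)
    linear_combination (f x) * this
  rw [e1]
  ring

lemma De_tendsto {u w : R3 → ℝ} (hu : Nice u) (hw : Nice w) {e : ℕ → ℝ} (he : ∀ n, 0 < e n)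
    (h0 : Tendsto e atTop (𝓝 0)) : Tendsto (fun n => De (e n) u w) atTop (𝓝 (DD u w)) := by
  have mu := hu.meas
  have mw := hw.meas
  have hI := hu.integrable_DD hw
  have hm : ∀ n, Measurable (fun p : R3 × R3 => kk (e n) p.1 p.2) := by
    intro n
    have : Continuous (fun p : R3 × R3 => ss (e n) p.1 p.2) := by unfold ss; fun_prop
    have := this.measurable
    unfold kk; fun_prop
  have hne : ∀ᵐ p : R3 × R3 ∂(volume.prod volume), p.1 - p.2 ≠ 0 :=
    (quasiMeasurePreserving_sub (volume : Measure R3) volume).ae ae_ne_zero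
  have hIn : ∀ n, Integrable (fun p : R3 × R3 => u p.1 * w p.2 * kk (e n) p.1 p.2)
      (volume.prod volume) := fun n =>
    (hu.integrable.mul_prod hw.integrable).mul_bdd (c := 1 / e n) (hm n).aestronglyMeasurable
      (ae_of_all _ fun p => abs_kk_le (he n) p.1 p.2)
  have e1 : ∀ n, De (e n) u w = ∫ p : R3 × R3, u p.1 * w p.2 * kk (e n) p.1 p.2
      ∂(volume.prod volume) := by
    intro n
    rw [integral_prod _ (hIn n), De]
    congr 1; ext x
    simp only [mul_assoc]
    rw [integral_const_mul]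
  have e2 : DD u w = ∫ p : R3 × R3, u p.1 * w p.2 / ‖p.1 - p.2‖ ∂(volume.prod volume) := by
    rw [integral_prod _ hI, DD]
  simp only [e1]
  rw [e2]
  refine tendsto_integral_of_dominated_convergence
    (fun p => ‖u p.1 * w p.2 / ‖p.1 - p.2‖‖) (fun n => ?_) hI.norm (fun n => ?_) ?_
  · exact (hIn n).aestronglyMeasurable
  · filter_upwards [hne] with p hp
    have hxy : 0 < ‖p.1 - p.2‖ := norm_pos_iff.2 hp
    rw [norm_mul, norm_div, div_eq_mul_inv, norm_norm]
    apply mul_le_mul_of_nonneg_left _ (norm_nonneg _)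
    rw [Real.norm_eq_abs, kk, abs_of_nonneg (by have := ss_nonneg (e n) p.1 p.2; positivity),
      ← one_div]
    apply one_div_le_one_div_of_le hxy
    rw [norm_sub_rev]
    exact norm_le_ss _ _ _
  · filter_upwards [hne] with p hp
    have hxy : 0 < ‖p.1 - p.2‖ := norm_pos_iff.2 hp
    have hk : Tendsto (fun n => kk (e n) p.1 p.2) atTop (𝓝 (1 / ‖p.1 - p.2‖)) := by
      unfold kk
      apply Tendsto.div tendsto_const_nhds _ hxy.ne'
      unfold ss
      have : ‖p.1 - p.2‖ = Real.sqrt (‖p.2 - p.1‖ ^ 2 + 0 ^ 2) := by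
        rw [norm_sub_rev]; simp [Real.sqrt_sq]
      rw [this]
      exact (tendsto_const_nhds.add (h0.pow 2)).sqrt
    have := hk.const_mul (u p.1 * w p.2)
    simpa [div_eq_mul_inv] using this

/-- **Gradient identity**. -/
theorem grad_identity {f : R3 → ℝ} {f' : Fin 3 → R3 → ℝ} (h : Smo f f') :
    DD (f' 0) (f' 0) + DD (f' 1) (f' 1) + DD (f' 2) (f' 2) = 4 * Real.pi * ∫ y, f y ^ 2 := by
  set e : ℕ → ℝ := fun n => 1 / ((n : ℝ) + 1) with he
  have hpos : ∀ n, 0 < e n := fun n => by positivity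
  have h0 : Tendsto e atTop (𝓝 0) := tendsto_one_div_add_atTop_nhds_zero_nat
  have hL := ((De_tendsto (h.nice' 0) (h.nice' 0) hpos h0).add
    (De_tendsto (h.nice' 1) (h.nice' 1) hpos h0)).add (De_tendsto (h.nice' 2) (h.nice' 2) hpos h0)
  obtain ⟨C, hC, hb⟩ := h.nice.bd
  have hb1 : ∀ x, |f x| ≤ C := by
    intro x
    refine (hb x).trans ?_
    rw [div_le_iff₀ (by positivity)]
    have : (1 : ℝ) ≤ (1 + ‖x‖) ^ 6 := one_le_pow₀ (by linarith [norm_nonneg x])
    nlinarith
  have hR : Tendsto (fun n => ∫ y, f y * ∫ x, 3 * e n ^ 2 / ss (e n) y x ^ 5 * f x) atTop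
      (𝓝 (∫ y, f y * (4 * Real.pi * f y))) := by
    have mf := h.nice.meas
    refine tendsto_integral_of_dominated_convergence (fun y => |f y| * (4 * Real.pi * C)) ?_
      (h.nice.integrable.abs.mul_const _) ?_ ?_
    · intro n
      have hm : Measurable (fun p : R3 × R3 => ss (e n) p.1 p.2) := by
        have : Continuous (fun p : R3 × R3 => ss (e n) p.1 p.2) := by unfold ss; fun_prop
        exact this.measurable
      have m1 : Measurable (fun p : R3 × R3 => 3 * e n ^ 2 / ss (e n) p.1 p.2 ^ 5 * f p.2) := by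
        fun_prop
      have m2 := m1.stronglyMeasurable.integral_prod_right' (ν := (volume : Measure R3))
      exact (mf.aestronglyMeasurable).mul m2.aestronglyMeasurable
    · intro n
      refine ae_of_all _ fun y => ?_
      rw [norm_mul, Real.norm_eq_abs]
      apply mul_le_mul_of_nonneg_left _ (abs_nonneg _)
      rw [integral_approx_eq (hpos n)]
      refine (norm_integral_le_integral_norm _).trans ?_
      have : 4 * Real.pi * C = ∫ z : R3, prof ‖z‖ * C := by
        rw [integral_mul_const, integral_prof3]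
      rw [this]
      refine integral_mono_of_nonneg (ae_of_all _ fun z => norm_nonneg _)
        (integrable_prof.mul_const C) (ae_of_all _ fun z => ?_)
      simp only
      have h1 : 0 ≤ prof ‖z‖ := by unfold prof; positivity
      rw [norm_mul, Real.norm_of_nonneg h1]
      exact mul_le_mul_of_nonneg_left (hb1 _) h1
    · refine ae_of_all _ fun y => ?_
      exact (tendsto_approx mf hb1 h.cont.continuousAt hpos h0).const_mul (f y)
  have heq : ∀ n, De (e n) (f' 0) (f' 0) + De (e n) (f' 1) (f' 1) + De (e n) (f' 2) (f' 2) =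
      ∫ y, f y * ∫ x, 3 * e n ^ 2 / ss (e n) y x ^ 5 * f x := fun n => De_sum h (hpos n)
  simp only [heq] at hL
  rw [tendsto_nhds_unique hL hR, ← integral_const_mul]
  congr 1; ext y; ring

/-- Coulomb form against a radial density. -/
theorem DD_radial {g g1 g2 : ℝ → ℝ} (h : Rad g g1 g2) (u : R3 → ℝ) :
    DD u (fun y => g2 ‖y‖ / ‖y‖) = 4 * Real.pi * ∫ x, u x * VV g ‖x‖ := by
  rw [DD, ← integral_const_mul]
  refine integral_congr_ae ?_
  filter_upwards [ae_ne_zero] with x hx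
  have e1 : ∀ y : R3, u x * (g2 ‖y‖ / ‖y‖) / ‖x - y‖ = u x * (g2 ‖y‖ / ‖y‖ / ‖x - y‖) := fun y => by
    ring
  simp only [e1]
  rw [integral_const_mul, newton h hx]
  ring

end

end Vale.Agent.P363.R.H10
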