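import Vale.Agent.P363.R.H10.Sym

/-! Coulomb energies of dipole and quadrupole type densities. -/

namespace Vale.Agent.P363.R.H10

open MeasureTheory Measure Module Topology Filter Set
open Vale.Agent.P363.Stmt

noncomputable section

lemma exists_perm01 : ∀ i j : Fin 3, i ≠ j → ∃ σ : Equiv.Perm (Fin 3), σ 0 = i ∧ σ 1 = j := by
  decide

lemma nice_of_le {u : R3 → ℝ} (mu : Measurable u) {k : ℝ} (hk : 0 < k) (n : ℕ) {C : ℝ}
    (hC : 0 ≤ C) (hq : ∀ x, |u x| ≤ C * (1 + ‖x‖) ^ n * Real.exp (-k * ‖x‖)) : Nice u where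
  meas := mu
  bd := by
    obtain ⟨D, hD, hb⟩ := pow_mul_exp_le (n + 6) hk
    refine ⟨C * D, by positivity, fun x => ?_⟩
    rw [le_div_iff₀ (by positivity)]
    calc |u x| * (1 + ‖x‖) ^ 6
        ≤ C * (1 + ‖x‖) ^ n * Real.exp (-k * ‖x‖) * (1 + ‖x‖) ^ 6 := by
          exact mul_le_mul_of_nonneg_right (hq x) (by positivity)
      _ = C * ((1 + ‖x‖) ^ (n + 6) * Real.exp (-k * ‖x‖)) := by rw [pow_add]; ring
      _ ≤ _ := mul_le_mul_of_nonneg_left (hb _ (norm_nonneg _)) hC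

/-- cubic polynomial times exponential, as a function of the norm, times a monomial -/
def Ex (F : ℝ → ℝ) : Prop := Continuous F ∧ ∃ (k C : ℝ) (n : ℕ), 0 < k ∧ 0 ≤ C ∧
  ∀ r, 0 ≤ r → |F r| ≤ C * (1 + r) ^ n * Real.exp (-k * r)

lemma ex_ce {a : ℝ} (ha : 0 < a) (c0 c1 c2 c3 : ℝ) : Ex (ce a c0 c1 c2 c3) := by
  refine ⟨by unfold ce; fun_prop, a, |c0| + |c1| + |c2| + |c3|, 3, ha, by positivity,
    fun r hr => ?_⟩
  rw [ce, abs_mul, abs_of_pos (Real.exp_pos _)]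
  refine mul_le_mul_of_nonneg_right ?_ (Real.exp_pos _).le
  have h1 : (1 : ℝ) ≤ 1 + r := by linarith
  have p0 : (1 : ℝ) ≤ (1 + r) ^ 3 := one_le_pow₀ h1
  have p1 : r ≤ (1 + r) ^ 3 := by nlinarith [pow_le_pow_right₀ h1 (show 1 ≤ 3 by norm_num)]
  have p2 : r ^ 2 ≤ (1 + r) ^ 3 :=
    (pow_le_pow_left₀ hr (by linarith) 2).trans (pow_le_pow_right₀ h1 (by norm_num))
  have p3 : r ^ 3 ≤ (1 + r) ^ 3 := pow_le_pow_left₀ hr (by linarith) 3
  calc |c0 + c1 * r + c2 * r ^ 2 + c3 * r ^ 3|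
      ≤ |c0| + |c1| * r + |c2| * r ^ 2 + |c3| * r ^ 3 := by
        refine (abs_add_le _ _).trans (add_le_add ((abs_add_le _ _).trans
          (add_le_add ((abs_add_le _ _).trans (add_le_add le_rfl ?_)) ?_)) ?_)
        · rw [abs_mul, abs_of_nonneg hr]
        · rw [abs_mul, abs_of_nonneg (show 0 ≤ r ^ 2 by positivity)]
        · rw [abs_mul, abs_of_nonneg (show 0 ≤ r ^ 3 by positivity)]
    _ ≤ |c0| * (1 + r) ^ 3 + |c1| * (1 + r) ^ 3 + |c2| * (1 + r) ^ 3 + |c3| * (1 + r) ^ 3 := by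
        gcongr
        nlinarith [abs_nonneg c0]
    _ = _ := by ring

/-- monomials of degree at most two times `F` are nice -/
lemma Ex.nice {F : ℝ → ℝ} (hF : Ex F) {q : R3 → ℝ} (mq : Measurable q)
    (hq : ∀ x, |q x| ≤ (1 + ‖x‖) ^ 2) : Nice (fun x => q x * F ‖x‖) := by
  obtain ⟨hc, k, C, n, hk, hC, hb⟩ := hF
  refine nice_of_le (mq.mul (hc.measurable.comp measurable_norm)) hk (n + 2) hC (fun x => ?_)
  rw [abs_mul, pow_add]
  calc |q x| * |F ‖x‖| ≤ (1 + ‖x‖) ^ 2 * (C * (1 + ‖x‖) ^ n * Real.exp (-k * ‖x‖)) :=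
        mul_le_mul (hq x) (hb _ (norm_nonneg _)) (abs_nonneg _) (by positivity)
    _ = _ := by ring

lemma Ex.nice0 {F : ℝ → ℝ} (hF : Ex F) : Nice (fun x : R3 => F ‖x‖) := by
  have := hF.nice (q := fun _ => 1) measurable_const (fun x => by
    rw [abs_one]; exact one_le_pow₀ (by linarith [norm_nonneg x]))
  simpa using this

lemma coord_le (x : R3) (i : Fin 3) : |x i| ≤ 1 + ‖x‖ := by
  linarith [abs_coord_le x i]

lemma Ex.nice1 {F : ℝ → ℝ} (hF : Ex F) (i : Fin 3) : Nice (fun x : R3 => x i * F ‖x‖) := by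
  refine hF.nice (by fun_prop) (fun x => (coord_le x i).trans ?_)
  have : (1 : ℝ) ≤ 1 + ‖x‖ := by linarith [norm_nonneg x]
  nlinarith

lemma Ex.nice2 {F : ℝ → ℝ} (hF : Ex F) (i j : Fin 3) :
    Nice (fun x : R3 => x i * x j * F ‖x‖) := by
  refine hF.nice (by fun_prop) (fun x => ?_)
  rw [abs_mul, pow_two]
  exact mul_le_mul (coord_le x i) (coord_le x j) (abs_nonneg _) (by positivity)

lemma Ex.niceS {F : ℝ → ℝ} (hF : Ex F) (i : Fin 3) :
    Nice (fun x : R3 => x i ^ 2 * F ‖x‖) := by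
  simpa only [pow_two] using hF.nice2 i i

lemma Ex.niceR {F : ℝ → ℝ} (hF : Ex F) : Nice (fun x : R3 => ‖x‖ ^ 2 * F ‖x‖) := by
  refine hF.nice (by fun_prop) (fun x => ?_)
  rw [abs_of_nonneg (by positivity)]
  exact pow_le_pow_left₀ (norm_nonneg _) (by linarith) 2

/-! ### dipoles -/

lemma smo_dip {F G : ℝ → ℝ} (hF : Ex F) (hG : Ex G)
    (hd : ∀ r, HasDerivAt G (r * F r) r) :
    Smo (fun x : R3 => G ‖x‖) (fun i x => x i * F ‖x‖) where
  nice := hG.nice0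
  nice' := fun i => hF.nice1 i
  cont := hG.1.comp continuous_norm
  der := fun i y hy => by
    have hn : ‖y‖ ≠ 0 := norm_ne_zero_iff.2 hy
    have h := hasLineDerivAt_comp_norm hy i (hd ‖y‖)
    convert! h using 1
    field_simp

/-- `D(x_i F, x_i F) = (16π²/3) ∫ r² G²` when `G' = r F`. -/
theorem DD_dipole {F G : ℝ → ℝ} (hF : Ex F) (hG : Ex G)
    (hd : ∀ r, HasDerivAt G (r * F r) r) (i : Fin 3) :
    DD (fun x => x i * F ‖x‖) (fun x => x i * F ‖x‖) =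
      16 * Real.pi ^ 2 / 3 * ∫ r in Ioi (0 : ℝ), r ^ 2 * G r ^ 2 := by
  have h := grad_identity (smo_dip hF hG hd)
  have hp : ∀ j : Fin 3, DD (fun x => x j * F ‖x‖) (fun x => x j * F ‖x‖) =
      DD (fun x => x 0 * F ‖x‖) (fun x => x 0 * F ‖x‖) := by
    intro j
    rw [← DD_isom (permI (Equiv.swap 0 j)) (fun x => x j * F ‖x‖) (fun x => x j * F ‖x‖)]
    have e1 : (fun x : R3 => (permI (Equiv.swap 0 j) x) j * F ‖permI (Equiv.swap 0 j) x‖) =
        fun x => x 0 * F ‖x‖ := by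
      ext x
      have := permI_apply (Equiv.swap 0 j) x 0
      rw [Equiv.swap_apply_left] at this
      rw [this, LinearIsometryEquiv.norm_map]
    rw [e1]
  rw [hp 1, hp 2, integral_radial (F := fun r => G r ^ 2)] at h
  rw [hp i]
  linarith

/-! ### quadrupoles -/

lemma smo_quad {F G : ℝ → ℝ} (hF : Ex F) (hG : Ex G)
    (hd : ∀ r, HasDerivAt G (r * F r) r) :
    Smo (fun x : R3 => x 1 * G ‖x‖)
      (fun i x => x i * x 1 * F ‖x‖ + if i = 1 then G ‖x‖ else 0) where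
  nice := hG.nice1 1
  nice' := fun i => by
    refine (hF.nice2 i 1).add ?_
    by_cases h : i = 1
    · simpa [h] using hG.nice0
    · simp only [h, if_false]
      exact ⟨measurable_const, 0, le_rfl, fun x => by simp⟩
  cont := by
    have := hG.1.comp (continuous_norm (E := R3))
    have h1 : Continuous (fun x : R3 => x 1) := by fun_prop
    exact h1.mul this
  der := fun i y hy => by
    have hn : ‖y‖ ≠ 0 := norm_ne_zero_iff.2 hy
    have h := HasLineDerivAt.mul' (hasLineDerivAt_coord y i 1)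
      (hasLineDerivAt_comp_norm hy i (hd ‖y‖))
    convert! h using 1
    split_ifs
    · field_simp; ring
    · field_simp; ring

section quad

variable {F : ℝ → ℝ}

lemma DD_perm2 (σ : Equiv.Perm (Fin 3)) (i j k l : Fin 3) :
    DD (fun x => x (σ i) * x (σ j) * F ‖x‖) (fun x => x (σ k) * x (σ l) * F ‖x‖) =
      DD (fun x => x i * x j * F ‖x‖) (fun x => x k * x l * F ‖x‖) := by
  rw [← DD_isom (permI σ) (fun x => x (σ i) * x (σ j) * F ‖x‖)]
  simp only [permI_apply, LinearIsometryEquiv.norm_map]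

lemma DD_offdiag {i j : Fin 3} (h : i ≠ j) :
    DD (fun x => x i * x j * F ‖x‖) (fun x => x i * x j * F ‖x‖) =
      DD (fun x => x 0 * x 1 * F ‖x‖) (fun x => x 0 * x 1 * F ‖x‖) := by
  obtain ⟨σ, h0, h1⟩ := exists_perm01 i j h
  rw [← h0, ← h1, DD_perm2]

lemma DD_diag (i : Fin 3) :
    DD (fun x => x i * x i * F ‖x‖) (fun x => x i * x i * F ‖x‖) =
      DD (fun x => x 0 * x 0 * F ‖x‖) (fun x => x 0 * x 0 * F ‖x‖) := by
  have := DD_perm2 (F := F) (Equiv.swap 0 i) 0 0 0 0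
  rwa [Equiv.swap_apply_left] at this

lemma DD_diag2 {i j : Fin 3} (h : i ≠ j) :
    DD (fun x => x i * x i * F ‖x‖) (fun x => x j * x j * F ‖x‖) =
      DD (fun x => x 0 * x 0 * F ‖x‖) (fun x => x 1 * x 1 * F ‖x‖) := by
  obtain ⟨σ, h0, h1⟩ := exists_perm01 i j h
  rw [← h0, ← h1, DD_perm2]

/-- rotation by 45 degrees -/
lemma DD_rot (hF : Ex F) :
    DD (fun x => x 0 * x 0 * F ‖x‖) (fun x => x 0 * x 0 * F ‖x‖) -
      DD (fun x => x 0 * x 0 * F ‖x‖) (fun x => x 1 * x 1 * F ‖x‖) =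
      2 * DD (fun x => x 0 * x 1 * F ‖x‖) (fun x => x 0 * x 1 * F ‖x‖) := by
  have h := DD_isom rot45 (fun x => x 0 * x 1 * F ‖x‖) (fun x => x 0 * x 1 * F ‖x‖)
  have e : (fun x : R3 => rot45 x 0 * rot45 x 1 * F ‖rot45 x‖) =
      fun x => (1 / 2) * (x 0 * x 0 * F ‖x‖) + (-1 / 2) * (x 1 * x 1 * F ‖x‖) := by
    ext x
    rw [LinearIsometryEquiv.norm_map, rot45_apply, rot45L_0, rot45L_1]
    have : Real.sqrt 2 * Real.sqrt 2 = 2 := Real.mul_self_sqrt (by norm_num)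
    have h2 : Real.sqrt 2 ≠ 0 := by positivity
    field_simp
    rw [show Real.sqrt 2 ^ 2 = 2 by rw [pow_two]; exact this]
    ring
  simp only [e] at h
  have n0 := hF.nice2 0 0
  have n1 := hF.nice2 1 1
  rw [DD_add_left (n0.const_mul _) (n1.const_mul _) ((n0.const_mul _).add (n1.const_mul _)),
    DD_add_right (n0.const_mul _) (n0.const_mul _) (n1.const_mul _),
    DD_add_right (n1.const_mul _) (n0.const_mul _) (n1.const_mul _)] at h
  simp only [DD_mul_left, DD_mul_right] at h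
  rw [DD_diag 1, DD_diag2 (i := 1) (j := 0) (by decide)] at h
  linarith

lemma DD_total (hF : Ex F) :
    DD (fun x => ‖x‖ ^ 2 * F ‖x‖) (fun x => ‖x‖ ^ 2 * F ‖x‖) =
      3 * DD (fun x => x 0 * x 0 * F ‖x‖) (fun x => x 0 * x 0 * F ‖x‖) +
      6 * DD (fun x => x 0 * x 0 * F ‖x‖) (fun x => x 1 * x 1 * F ‖x‖) := by
  have e : (fun x : R3 => ‖x‖ ^ 2 * F ‖x‖) =
      fun x => (x 0 * x 0 * F ‖x‖ + x 1 * x 1 * F ‖x‖) + x 2 * x 2 * F ‖x‖ := by
    ext x; rw [norm_sq_eq_sum]; ring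
  have n := fun i : Fin 3 => hF.nice2 i i
  have s := ((n 0).add (n 1)).add (n 2)
  rw [e, DD_add_left ((n 0).add (n 1)) (n 2) s, DD_add_left (n 0) (n 1) s]
  have r : ∀ i : Fin 3, DD (fun x => x i * x i * F ‖x‖)
      (fun x => (x 0 * x 0 * F ‖x‖ + x 1 * x 1 * F ‖x‖) + x 2 * x 2 * F ‖x‖) =
      DD (fun x => x i * x i * F ‖x‖) (fun x => x 0 * x 0 * F ‖x‖) +
      DD (fun x => x i * x i * F ‖x‖) (fun x => x 1 * x 1 * F ‖x‖) +
      DD (fun x => x i * x i * F ‖x‖) (fun x => x 2 * x 2 * F ‖x‖) := fun i => by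
    rw [DD_add_right (n i) ((n 0).add (n 1)) (n 2), DD_add_right (n i) (n 0) (n 1)]
  rw [r 0, r 1, r 2, DD_diag 1, DD_diag 2, DD_diag2 (i := 0) (j := 2) (by decide),
    DD_diag2 (i := 1) (j := 0) (by decide), DD_diag2 (i := 1) (j := 2) (by decide),
    DD_diag2 (i := 2) (j := 0) (by decide), DD_diag2 (i := 2) (j := 1) (by decide)]
  ring

/-- the quadrupole energy -/
theorem DD_quad {G : ℝ → ℝ} (hF : Ex F) (hG : Ex G) (hd : ∀ r, HasDerivAt G (r * F r) r) :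
    (10 / 3) * DD (fun x => x 0 * x 1 * F ‖x‖) (fun x => x 0 * x 1 * F ‖x‖) =
      16 * Real.pi ^ 2 / 3 * (∫ r in Ioi (0 : ℝ), r ^ 2 * (r ^ 2 * G r ^ 2)) -
      1 / 9 * DD (fun x => 3 * G ‖x‖ + ‖x‖ ^ 2 * F ‖x‖) (fun x => 3 * G ‖x‖ + ‖x‖ ^ 2 * F ‖x‖) := by
  have h := grad_identity (smo_quad hF hG hd)
  have n := fun i : Fin 3 => hF.nice2 i i
  have nG := hG.nice0
  have nR := hF.niceR
  simp only [if_true, show (0 : Fin 3) = 1 ↔ False by decide, show (2 : Fin 3) = 1 ↔ False by decide,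
    if_false, add_zero] at h
  rw [DD_add_left (n 1) nG ((n 1).add nG), DD_add_right (n 1) (n 1) nG,
    DD_add_right nG (n 1) nG, DD_offdiag (i := 2) (j := 1) (by decide), DD_diag 1,
    DD_comm nG (n 1)] at h
  have h1 : DD (fun x : R3 => x 1 * x 1 * F ‖x‖) (fun x => G ‖x‖) =
      1 / 3 * DD (fun x => ‖x‖ ^ 2 * F ‖x‖) (fun y => G ‖y‖) := by
    have := DD_coord_sq (F := F) (G := G) (fun i => hF.niceS i) nG 1
    simpa only [pow_two] using this
  rw [h1] at h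
  have nw : Nice (fun x : R3 => 3 * G ‖x‖ + ‖x‖ ^ 2 * F ‖x‖) := (nG.const_mul 3).add nR
  have h2 : DD (fun x => 3 * G ‖x‖ + ‖x‖ ^ 2 * F ‖x‖) (fun x => 3 * G ‖x‖ + ‖x‖ ^ 2 * F ‖x‖) =
      9 * DD (fun x : R3 => G ‖x‖) (fun x => G ‖x‖) +
      6 * DD (fun x => ‖x‖ ^ 2 * F ‖x‖) (fun x => G ‖x‖) +
      DD (fun x => ‖x‖ ^ 2 * F ‖x‖) (fun x => ‖x‖ ^ 2 * F ‖x‖) := by
    rw [DD_add_left (nG.const_mul 3) nR nw, DD_add_right (nG.const_mul 3) (nG.const_mul 3) nR,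
      DD_add_right nR (nG.const_mul 3) nR]
    simp only [DD_mul_left, DD_mul_right]
    rw [DD_comm nG nR]
    ring
  have h3 := DD_total hF
  have h4 := DD_rot hF
  have h5 : ∫ y : R3, (y 1 * G ‖y‖) ^ 2 = 1 / 3 * ∫ y : R3, ‖y‖ ^ 2 * G ‖y‖ ^ 2 := by
    rw [← integral_coord_sq (F := fun r => G r ^ 2) (fun i => ?_) 1]
    · congr 1; ext y; ring
    · have := (hG.nice1 i)
      obtain ⟨C, hC, hb⟩ := this.bd
      have m := this.mul_bdd this.meas C (fun x => (hb x).trans (by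
        rw [div_le_iff₀ (by positivity)]
        have : (1 : ℝ) ≤ (1 + ‖x‖) ^ 6 := one_le_pow₀ (by linarith [norm_nonneg x])
        nlinarith))
      refine m.congr (ae_of_all _ fun x => ?_)
      simp only; ring
  rw [h5, integral_radial (F := fun r => r ^ 2 * G r ^ 2)] at h
  linarith

end quad

end

end Vale.Agent.P363.R.H10
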