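import Vale.Agent.P363.R.H10.Approx

/-! Newton's theorem for radial densities `g''(r)/r`: the Coulomb potential is
`4π (g(0) - g(r))/r`. -/

namespace Vale.Agent.P363.R.H10

open MeasureTheory Measure Module Topology Filter Set
open Vale.Agent.P363.Stmt

noncomputable section

/-- rapid decay on `[0,∞)` -/
def Dec (g : ℝ → ℝ) : Prop := ∀ n : ℕ, ∃ C, ∀ r, 0 ≤ r → |g r| ≤ C / (1 + r) ^ n

lemma Dec.bound {g : ℝ → ℝ} (h : Dec g) (n : ℕ) :
    ∃ C, 0 ≤ C ∧ ∀ r, 0 ≤ r → |g r| ≤ C / (1 + r) ^ n := by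
  obtain ⟨C, hC⟩ := h n
  refine ⟨|C|, abs_nonneg _, fun r hr => (hC r hr).trans ?_⟩
  have : 0 < (1 + r) ^ n := by positivity
  exact div_le_div_of_nonneg_right (le_abs_self C) this.le

/-- data of a radial charge density -/
structure Rad (g g1 g2 : ℝ → ℝ) : Prop where
  d1 : ∀ r, HasDerivAt g (g1 r) r
  d2 : ∀ r, HasDerivAt g1 (g2 r) r
  c2 : Continuous g2
  dec : Dec g
  dec1 : Dec g1
  dec2 : Dec g2

variable {g g1 g2 : ℝ → ℝ}

/-- potential -/
def VV (g : ℝ → ℝ) (r : ℝ) : ℝ := (g 0 - g r) / r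

/-- minus (derivative over `r`) -/
def aa (g g1 : ℝ → ℝ) (r : ℝ) : ℝ := (r * g1 r + g 0 - g r) / r ^ 3

/-- diagonal second derivative of the potential -/
def V2 (g g1 g2 : ℝ → ℝ) (i : Fin 3) (y : R3) : ℝ :=
  -aa g g1 ‖y‖ - (g2 ‖y‖ / ‖y‖ ^ 3 - 3 * aa g g1 ‖y‖ / ‖y‖ ^ 2) * y i ^ 2

lemma hasDerivAt_VV (h : Rad g g1 g2) {r : ℝ} (hr : r ≠ 0) :
    HasDerivAt (VV g) (-r * aa g g1 r) r := by
  have h1 := ((h.d1 r).const_sub (g 0)).div (hasDerivAt_id r) hr
  convert! h1 using 1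
  simp only [aa, id]
  field_simp
  ring

lemma hasDerivAt_aa (h : Rad g g1 g2) {r : ℝ} (hr : r ≠ 0) :
    HasDerivAt (aa g g1) (g2 r / r ^ 2 - 3 * aa g g1 r / r) r := by
  have h0 : HasDerivAt (fun r => r * g1 r + g 0 - g r) (1 * g1 r + r * g2 r - g1 r) r := by
    have := (((hasDerivAt_id r).mul (h.d2 r)).add_const (g 0)).sub (h.d1 r)
    convert! this using 1
  have h1 := h0.div (hasDerivAt_pow 3 r) (pow_ne_zero 3 hr)
  convert! h1 using 1
  simp only [aa]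
  push_cast
  field_simp
  ring

lemma hasLineDerivAt_VV (h : Rad g g1 g2) {y : R3} (hy : y ≠ 0) (i : Fin 3) :
    HasLineDerivAt ℝ (fun y : R3 => VV g ‖y‖) (-aa g g1 ‖y‖ * y i) y (ei i) := by
  have hn : ‖y‖ ≠ 0 := norm_ne_zero_iff.2 hy
  have h1 := hasLineDerivAt_comp_norm hy i (hasDerivAt_VV h hn)
  convert! h1 using 1
  field_simp

lemma hasLineDerivAt_V1 (h : Rad g g1 g2) {y : R3} (hy : y ≠ 0) (i : Fin 3) :
    HasLineDerivAt ℝ (fun y : R3 => -aa g g1 ‖y‖ * y i) (V2 g g1 g2 i y) y (ei i) := by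
  have hn : ‖y‖ ≠ 0 := norm_ne_zero_iff.2 hy
  have h1 := HasLineDerivAt.neg' (hasLineDerivAt_comp_norm hy i (hasDerivAt_aa h hn))
  have h2 := hasLineDerivAt_coord y i i
  have h3 := HasLineDerivAt.mul' h1 h2
  simp only [if_true] at h3
  convert! h3 using 1
  simp only [V2]
  field_simp
  ring

lemma sum_V2 {y : R3} (hy : y ≠ 0) :
    V2 g g1 g2 0 y + V2 g g1 g2 1 y + V2 g g1 g2 2 y = - (g2 ‖y‖ / ‖y‖) := by
  have hn : ‖y‖ ≠ 0 := norm_ne_zero_iff.2 hy
  have h1 := norm_sq_eq_sum y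
  have : V2 g g1 g2 0 y + V2 g g1 g2 1 y + V2 g g1 g2 2 y = -3 * aa g g1 ‖y‖ -
      (g2 ‖y‖ / ‖y‖ ^ 3 - 3 * aa g g1 ‖y‖ / ‖y‖ ^ 2) * (y 0 ^ 2 + y 1 ^ 2 + y 2 ^ 2) := by
    simp only [V2]; ring
  rw [this, ← h1]
  field_simp
  ring

/-- Lipschitz at zero -/
lemma Rad.lip (h : Rad g g1 g2) : ∃ C, 0 ≤ C ∧ ∀ r, 0 ≤ r → |g 0 - g r| ≤ C * r := by
  obtain ⟨C, hC, hb⟩ := h.dec1.bound 0
  refine ⟨C, hC, fun r hr => ?_⟩
  have := Convex.norm_image_sub_le_of_norm_hasDerivWithin_le (f := g) (f' := g1) (s := Icc 0 r)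
    (C := C) (x := r) (y := 0) (fun x _ => (h.d1 x).hasDerivWithinAt)
    (fun x hx => by simpa using hb x hx.1) (convex_Icc 0 r) (right_mem_Icc.2 hr)
    (left_mem_Icc.2 hr)
  simpa [abs_of_nonneg hr] using this

lemma Rad.bounds (h : Rad g g1 g2) : ∃ C, 0 ≤ C ∧ ∀ r, 0 < r →
    |VV g r| ≤ C / (1 + r) ∧ |aa g g1 r| ≤ C / (r ^ 2 * (1 + r)) ∧
      |g2 r| ≤ C / (1 + r) ^ 2 := by
  obtain ⟨L, hL, hl⟩ := h.lip
  obtain ⟨A, hA, ha⟩ := h.dec.bound 0
  obtain ⟨B, hB, hb⟩ := h.dec1.bound 1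
  obtain ⟨D, hD, hd⟩ := h.dec2.bound 2
  simp only [pow_zero, div_one, pow_one] at ha hb
  have key : ∀ r, 0 < r → |g 0 - g r| ≤ (L + 2 * A) * 2 * (r / (1 + r)) := by
    intro r hr
    have h1 := hl r hr.le
    have h2 : |g 0 - g r| ≤ 2 * A := by
      have := abs_sub (g 0) (g r)
      have := ha 0 le_rfl
      have := ha r hr.le
      linarith
    rcases le_total r 1 with h3 | h3
    · have : r / 2 ≤ r / (1 + r) := by gcongr; linarith
      nlinarith
    · have : (1 : ℝ) / 2 ≤ r / (1 + r) := by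
        rw [div_le_div_iff₀ (by norm_num) (by linarith)]; linarith
      nlinarith
  refine ⟨(L + 2 * A) * 2 + B + D, by positivity, fun r hr => ⟨?_, ?_, ?_⟩⟩
  · have h1 := key r hr
    rw [VV, abs_div, abs_of_pos hr, div_le_div_iff₀ hr (by linarith)]
    have h2 : |g 0 - g r| * (1 + r) ≤ (L + 2 * A) * 2 * r := by
      have := mul_le_mul_of_nonneg_right h1 (show 0 ≤ 1 + r by linarith)
      refine this.trans (le_of_eq ?_)
      field_simp
    nlinarith [mul_nonneg hB hr.le, mul_nonneg hD hr.le]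
  · have h1 := key r hr
    have h2 := hb r hr.le
    rw [aa, abs_div, abs_of_pos (by positivity : (0 : ℝ) < r ^ 3),
      div_le_div_iff₀ (by positivity) (by positivity)]
    have h3 : |r * g1 r + g 0 - g r| ≤ r * (B / (1 + r)) + (L + 2 * A) * 2 * (r / (1 + r)) := by
      have e : r * g1 r + g 0 - g r = r * g1 r + (g 0 - g r) := by ring
      rw [e]
      refine (abs_add_le _ _).trans (add_le_add ?_ h1)
      rw [abs_mul, abs_of_pos hr]
      exact mul_le_mul_of_nonneg_left h2 hr.le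
    have h4 : r * (B / (1 + r)) + (L + 2 * A) * 2 * (r / (1 + r)) =
        ((L + 2 * A) * 2 + B) * r / (1 + r) := by field_simp; ring
    rw [h4] at h3
    calc |r * g1 r + g 0 - g r| * (r ^ 2 * (1 + r))
        ≤ ((L + 2 * A) * 2 + B) * r / (1 + r) * (r ^ 2 * (1 + r)) :=
          mul_le_mul_of_nonneg_right h3 (by positivity)
      _ = ((L + 2 * A) * 2 + B) * r ^ 3 := by field_simp
      _ ≤ _ := mul_le_mul_of_nonneg_right (by linarith) (by positivity)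
  · refine (hd r hr.le).trans ?_
    gcongr
    have : 0 ≤ (L + 2 * A) * 2 + B := by positivity
    linarith

lemma one_add_norm_le_ss {e : ℝ} (he : 0 < e) (x y : R3) :
    1 + ‖y‖ ≤ ((1 + ‖x‖) / e + 1) * ss e x y := by
  have h1 := le_ss he.le x y
  have h2 := norm_le_ss e x y
  have h3 : ‖y‖ ≤ ‖y - x‖ + ‖x‖ := by
    have := norm_add_le (y - x) x
    simpa using this
  have h4 : (1 + ‖x‖) ≤ (1 + ‖x‖) / e * ss e x y := by
    rw [div_mul_eq_mul_div, le_div_iff₀ he]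
    exact mul_le_mul_of_nonneg_left h1 (by positivity)
  nlinarith

lemma inv_ss_le {e : ℝ} (he : 0 < e) (x y : R3) :
    1 / ss e x y ≤ ((1 + ‖x‖) / e + 1) / (1 + ‖y‖) := by
  rw [div_le_div_iff₀ (ss_pos he x y) (by positivity)]
  simpa using one_add_norm_le_ss he x y

lemma abs_kk1_le {e : ℝ} (he : 0 < e) (x y : R3) (i : Fin 3) :
    |kk1 e x i y| ≤ (1 / ss e x y) ^ 2 := by
  have hs := ss_pos he x y
  rw [kk1, abs_div, abs_neg, abs_of_pos (by positivity : 0 < ss e x y ^ 3), one_div, inv_pow,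
    ← one_div, div_le_div_iff₀ (by positivity) (by positivity), one_mul]
  have h1 : |y i - x i| ≤ ss e x y := by
    have := abs_coord_le (y - x) i
    simp only [PiLp.sub_apply] at this
    exact this.trans (norm_le_ss e x y)
  nlinarith [sq_nonneg (ss e x y), mul_le_mul_of_nonneg_right h1 (sq_nonneg (ss e x y))]

lemma abs_kk2_le {e : ℝ} (he : 0 < e) (x y : R3) (i : Fin 3) :
    |kk2 e x i y| ≤ 4 * (1 / ss e x y) ^ 3 := by
  have hs := ss_pos he x y
  have h1 : (y i - x i) ^ 2 ≤ ss e x y ^ 2 := by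
    have := abs_coord_le (y - x) i
    simp only [PiLp.sub_apply] at this
    have h2 := this.trans (norm_le_ss e x y)
    rw [← sq_abs]
    exact pow_le_pow_left₀ (abs_nonneg _) h2 2
  have e1 : kk2 e x i y = (1 / ss e x y) ^ 3 * (-1 + 3 * ((y i - x i) ^ 2 / ss e x y ^ 2)) := by
    simp only [kk2]; field_simp
  have h2 : (y i - x i) ^ 2 / ss e x y ^ 2 ≤ 1 := by
    rw [div_le_one (by positivity)]; exact h1
  have h3 : 0 ≤ (y i - x i) ^ 2 / ss e x y ^ 2 := by positivity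
  rw [e1, abs_mul, abs_of_pos (by positivity : 0 < (1 / ss e x y) ^ 3), mul_comm]
  refine mul_le_mul_of_nonneg_right ?_ (by positivity)
  rw [abs_le]; constructor <;> linarith

lemma continuous_g (h : Rad g g1 g2) : Continuous g :=
  continuous_iff_continuousAt.2 fun r => (h.d1 r).continuousAt

lemma continuous_g1 (h : Rad g g1 g2) : Continuous g1 :=
  continuous_iff_continuousAt.2 fun r => (h.d2 r).continuousAt

lemma abs_V2_le (_h : Rad g g1 g2) {C : ℝ} (hC : 0 ≤ C)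
    (hb : ∀ r, 0 < r → |VV g r| ≤ C / (1 + r) ∧ |aa g g1 r| ≤ C / (r ^ 2 * (1 + r)) ∧
      |g2 r| ≤ C / (1 + r) ^ 2) {y : R3} (hy : y ≠ 0) (i : Fin 3) :
    |V2 g g1 g2 i y| ≤ 5 * C / (‖y‖ ^ 2 * (1 + ‖y‖)) := by
  have hn : 0 < ‖y‖ := norm_pos_iff.2 hy
  obtain ⟨-, h2, h3⟩ := hb ‖y‖ hn
  have hy2 : y i ^ 2 ≤ ‖y‖ ^ 2 := by
    rw [← sq_abs]; exact pow_le_pow_left₀ (abs_nonneg _) (abs_coord_le y i) 2
  have e1 : V2 g g1 g2 i y = -aa g g1 ‖y‖ - (g2 ‖y‖ / ‖y‖ - 3 * aa g g1 ‖y‖) *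
      (y i ^ 2 / ‖y‖ ^ 2) := by
    simp only [V2]; field_simp
  have h4 : 0 ≤ y i ^ 2 / ‖y‖ ^ 2 := by positivity
  have h5 : y i ^ 2 / ‖y‖ ^ 2 ≤ 1 := by rw [div_le_one (by positivity)]; exact hy2
  have h6 : |g2 ‖y‖ / ‖y‖| ≤ C / (‖y‖ ^ 2 * (1 + ‖y‖)) := by
    rw [abs_div, abs_of_pos hn, div_le_div_iff₀ hn (by positivity)]
    calc |g2 ‖y‖| * (‖y‖ ^ 2 * (1 + ‖y‖)) ≤ C / (1 + ‖y‖) ^ 2 * (‖y‖ ^ 2 * (1 + ‖y‖)) :=
          mul_le_mul_of_nonneg_right h3 (by positivity)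
      _ = C * ‖y‖ * (‖y‖ / (1 + ‖y‖)) := by field_simp
      _ ≤ C * ‖y‖ * 1 := by
          apply mul_le_mul_of_nonneg_left _ (by positivity)
          rw [div_le_one (by positivity)]; linarith
      _ = C * ‖y‖ := by ring
  have h7 : |(g2 ‖y‖ / ‖y‖ - 3 * aa g g1 ‖y‖) * (y i ^ 2 / ‖y‖ ^ 2)| ≤
      |g2 ‖y‖ / ‖y‖| + 3 * |aa g g1 ‖y‖| := by
    rw [abs_mul, abs_of_nonneg h4]
    have : |g2 ‖y‖ / ‖y‖ - 3 * aa g g1 ‖y‖| ≤ |g2 ‖y‖ / ‖y‖| + 3 * |aa g g1 ‖y‖| := by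
      refine (abs_sub _ _).trans ?_
      rw [abs_mul]; norm_num
    nlinarith [abs_nonneg (g2 ‖y‖ / ‖y‖ - 3 * aa g g1 ‖y‖)]
  rw [e1]
  refine (abs_sub _ _).trans ?_
  rw [abs_neg]
  have : 5 * C / (‖y‖ ^ 2 * (1 + ‖y‖)) = 5 * (C / (‖y‖ ^ 2 * (1 + ‖y‖))) := by ring
  rw [this]
  linarith

lemma measurable_V2 (h : Rad g g1 g2) (i : Fin 3) : Measurable (V2 g g1 g2 i) := by
  have m0 := (continuous_g h).measurable
  have m1 := (continuous_g1 h).measurable
  have m2 := h.c2.measurable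
  have n0 : Measurable (fun y : R3 => g ‖y‖) := m0.comp measurable_norm
  have n1 : Measurable (fun y : R3 => g1 ‖y‖) := m1.comp measurable_norm
  have n2 : Measurable (fun y : R3 => g2 ‖y‖) := m2.comp measurable_norm
  unfold V2 aa
  fun_prop

lemma measurable_VV (h : Rad g g1 g2) : Measurable (fun y : R3 => VV g ‖y‖) := by
  have n0 : Measurable (fun y : R3 => g ‖y‖) := (continuous_g h).measurable.comp measurable_norm
  exact (measurable_const.sub n0).div measurable_norm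

lemma measurable_ss (e : ℝ) (a : R3) : Measurable (ss e a) := (continuous_ss e a).measurable

lemma measurable_kk (e : ℝ) (a : R3) : Measurable (kk e a) := by
  have := measurable_ss e a
  unfold kk; fun_prop

lemma measurable_kk1 (e : ℝ) (a : R3) (i : Fin 3) : Measurable (kk1 e a i) := by
  have := measurable_ss e a
  unfold kk1; fun_prop

lemma measurable_kk2 (e : ℝ) (a : R3) (i : Fin 3) : Measurable (kk2 e a i) := by
  have := measurable_ss e a
  unfold kk2; fun_prop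

lemma ae_ne_zero : ∀ᵐ y : R3, y ≠ 0 := by
  rw [ae_iff]; simp

/-- Green identity with the regularised kernel, one coordinate. -/
lemma green_coord (h : Rad g g1 g2) {e : ℝ} (he : 0 < e) (x : R3) (i : Fin 3) :
    Integrable (fun y : R3 => VV g ‖y‖ * kk2 e x i y - kk e x y * V2 g g1 g2 i y) ∧
    ∫ y : R3, (VV g ‖y‖ * kk2 e x i y - kk e x y * V2 g g1 g2 i y) = 0 := by
  obtain ⟨C, hC, hb⟩ := h.bounds
  set M : ℝ := (1 + ‖x‖) / e + 1 with hM
  have hM0 : 0 ≤ M := by positivity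
  have hint : Integrable (fun y : R3 => VV g ‖y‖ * kk2 e x i y - kk e x y * V2 g g1 g2 i y) := by
    refine (integrable_maj.const_mul (4 * C * M ^ 3 + 5 * C * M)).mono'
      (((measurable_VV h).mul (measurable_kk2 e x i)).sub
        ((measurable_kk e x).mul (measurable_V2 h i))).aestronglyMeasurable ?_
    filter_upwards [ae_ne_zero] with y hy
    have hn : 0 < ‖y‖ := norm_pos_iff.2 hy
    obtain ⟨h1, -, -⟩ := hb ‖y‖ hn
    have h2 := abs_V2_le h hC hb hy i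
    have h3 := abs_kk2_le he x y i
    have h4 := inv_ss_le he x y
    have hs : 0 ≤ 1 / ss e x y := by have := ss_nonneg e x y; positivity
    have h5 : |kk e x y| ≤ M / (1 + ‖y‖) := by rw [kk, abs_of_nonneg hs]; exact h4
    have h6 : |kk2 e x i y| ≤ 4 * (M / (1 + ‖y‖)) ^ 3 :=
      h3.trans (mul_le_mul_of_nonneg_left (pow_le_pow_left₀ hs h4 3) (by norm_num))
    rw [Real.norm_eq_abs]
    refine (abs_sub _ _).trans ?_
    rw [abs_mul, abs_mul]
    have h7 : |VV g ‖y‖| * |kk2 e x i y| ≤ C / (1 + ‖y‖) * (4 * (M / (1 + ‖y‖)) ^ 3) :=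
      mul_le_mul h1 h6 (abs_nonneg _) (by positivity)
    have h8 : |kk e x y| * |V2 g g1 g2 i y| ≤ M / (1 + ‖y‖) * (5 * C / (‖y‖ ^ 2 * (1 + ‖y‖))) :=
      mul_le_mul h5 h2 (abs_nonneg _) (by positivity)
    have h9 : C / (1 + ‖y‖) * (4 * (M / (1 + ‖y‖)) ^ 3) ≤
        4 * C * M ^ 3 * (1 / (‖y‖ ^ 2 * (1 + ‖y‖) ^ 2)) := by
      have : C / (1 + ‖y‖) * (4 * (M / (1 + ‖y‖)) ^ 3) =
        4 * C * M ^ 3 * (1 / ((1 + ‖y‖) ^ 2 * (1 + ‖y‖) ^ 2)) := by field_simp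
      rw [this]
      apply mul_le_mul_of_nonneg_left _ (by positivity)
      apply one_div_le_one_div_of_le (by positivity)
      apply mul_le_mul_of_nonneg_right _ (by positivity)
      exact pow_le_pow_left₀ hn.le (by linarith) 2
    have h10 : M / (1 + ‖y‖) * (5 * C / (‖y‖ ^ 2 * (1 + ‖y‖))) =
        5 * C * M * (1 / (‖y‖ ^ 2 * (1 + ‖y‖) ^ 2)) := by field_simp
    linarith
  refine ⟨hint, ?_⟩
  have hf : ∀ y : R3, y ≠ 0 → HasLineDerivAt ℝ
      (fun y : R3 => VV g ‖y‖ * kk1 e x i y - kk e x y * (-aa g g1 ‖y‖ * y i))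
      (VV g ‖y‖ * kk2 e x i y - kk e x y * V2 g g1 g2 i y) y (ei i) := by
    intro y hy
    have hs := ss_pos he x y
    have a1 := HasLineDerivAt.mul' (hasLineDerivAt_VV h hy i) (hasLineDerivAt_kk1 hs i)
    have a2 := HasLineDerivAt.mul' (hasLineDerivAt_kk hs i) (hasLineDerivAt_V1 h hy i)
    convert! HasLineDerivAt.sub' a1 a2 using 1
    ring
  refine integral_lineDeriv_zero (v := ei i) (by rw [finrank_R3]; norm_num) hint hf ?_
  -- decay
  have ht : Tendsto (fun y : R3 => (C * M ^ 2 + M * C) / (1 + ‖y‖)) (cocompact R3) (𝓝 0) := by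
    apply Tendsto.div_atTop tendsto_const_nhds
    exact tendsto_atTop_add_const_left _ _ (tendsto_norm_cocompact_atTop)
  refine squeeze_zero_norm' ?_ ht
  have hev : ∀ᶠ y : R3 in cocompact R3, 1 ≤ ‖y‖ :=
    tendsto_norm_cocompact_atTop.eventually (eventually_ge_atTop 1)
  filter_upwards [hev] with y hy1
  have hn : 0 < ‖y‖ := by linarith
  obtain ⟨h1, h2, -⟩ := hb ‖y‖ hn
  have h4 := inv_ss_le he x y
  have hs : 0 ≤ 1 / ss e x y := by have := ss_nonneg e x y; positivity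
  have h5 : |kk e x y| ≤ M / (1 + ‖y‖) := by rw [kk, abs_of_nonneg hs]; exact h4
  have h6 : |kk1 e x i y| ≤ (M / (1 + ‖y‖)) ^ 2 :=
    (abs_kk1_le he x y i).trans (pow_le_pow_left₀ hs h4 2)
  have h7 : |-aa g g1 ‖y‖ * y i| ≤ C := by
    rw [abs_mul, abs_neg]
    calc |aa g g1 ‖y‖| * |y i| ≤ C / (‖y‖ ^ 2 * (1 + ‖y‖)) * ‖y‖ :=
          mul_le_mul h2 (abs_coord_le y i) (abs_nonneg _) (by positivity)
      _ = C / (‖y‖ * (1 + ‖y‖)) := by field_simp
      _ ≤ C / 1 := by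
          apply div_le_div_of_nonneg_left hC (by norm_num)
          nlinarith
      _ = C := by simp
  have hpos : 0 < 1 + ‖y‖ := by positivity
  rw [Real.norm_eq_abs]
  refine (abs_sub _ _).trans ?_
  rw [abs_mul, abs_mul]
  have h8 : |VV g ‖y‖| * |kk1 e x i y| ≤ C * M ^ 2 / (1 + ‖y‖) := by
    calc |VV g ‖y‖| * |kk1 e x i y| ≤ C / (1 + ‖y‖) * (M / (1 + ‖y‖)) ^ 2 :=
          mul_le_mul h1 h6 (abs_nonneg _) (by positivity)
      _ = C * M ^ 2 / (1 + ‖y‖) * (1 / (1 + ‖y‖) ^ 2) := by field_simp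
      _ ≤ C * M ^ 2 / (1 + ‖y‖) * 1 := by
          apply mul_le_mul_of_nonneg_left _ (by positivity)
          rw [div_le_one (by positivity)]
          nlinarith
      _ = _ := by ring
  have h9 : |kk e x y| * |-aa g g1 ‖y‖ * y i| ≤ M * C / (1 + ‖y‖) := by
    calc |kk e x y| * |-aa g g1 ‖y‖ * y i| ≤ M / (1 + ‖y‖) * C :=
          mul_le_mul h5 h7 (abs_nonneg _) (by positivity)
      _ = _ := by ring
  calc |VV g ‖y‖| * |kk1 e x i y| + |kk e x y| * |-aa g g1 ‖y‖ * y i|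
      ≤ C * M ^ 2 / (1 + ‖y‖) + M * C / (1 + ‖y‖) := add_le_add h8 h9
    _ = _ := by ring

/-- Green identity with the regularised kernel. -/
lemma green (h : Rad g g1 g2) {e : ℝ} (he : 0 < e) (x : R3) :
    ∫ y : R3, g2 ‖y‖ / ‖y‖ * kk e x y = ∫ y : R3, 3 * e ^ 2 / ss e x y ^ 5 * VV g ‖y‖ := by
  obtain ⟨C, hC, hb⟩ := h.bounds
  obtain ⟨i0, z0⟩ := green_coord h he x 0
  obtain ⟨i1, z1⟩ := green_coord h he x 1
  obtain ⟨i2, z2⟩ := green_coord h he x 2
  have hI : Integrable (fun y : R3 => 3 * e ^ 2 / ss e x y ^ 5 * VV g ‖y‖) := by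
    have m : Measurable (fun y : R3 => 3 * e ^ 2 / ss e x y ^ 5 * VV g ‖y‖) := by
      have a1 := measurable_ss e x
      have a2 := measurable_VV h
      fun_prop
    set M : ℝ := (1 + ‖x‖) / e + 1 with hM
    refine (integrable_maj.const_mul (3 * e ^ 2 * M ^ 5 * C)).mono' m.aestronglyMeasurable ?_
    filter_upwards [ae_ne_zero] with y hy
    have hn : 0 < ‖y‖ := norm_pos_iff.2 hy
    obtain ⟨h1, -, -⟩ := hb ‖y‖ hn
    have hs := ss_pos he x y
    have h4 := inv_ss_le he x y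
    have h5 : (1 / ss e x y) ^ 5 ≤ (M / (1 + ‖y‖)) ^ 5 := pow_le_pow_left₀ (by positivity) h4 5
    rw [Real.norm_eq_abs, abs_mul, abs_of_pos (by positivity : 0 < 3 * e ^ 2 / ss e x y ^ 5)]
    have e1 : 3 * e ^ 2 / ss e x y ^ 5 = 3 * e ^ 2 * (1 / ss e x y) ^ 5 := by field_simp
    rw [e1]
    calc 3 * e ^ 2 * (1 / ss e x y) ^ 5 * |VV g ‖y‖|
        ≤ 3 * e ^ 2 * (M / (1 + ‖y‖)) ^ 5 * (C / (1 + ‖y‖)) := by
          apply mul_le_mul _ h1 (abs_nonneg _) (by positivity)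
          exact mul_le_mul_of_nonneg_left h5 (by positivity)
      _ = 3 * e ^ 2 * M ^ 5 * C * (1 / ((1 + ‖y‖) ^ 4 * (1 + ‖y‖) ^ 2)) := by field_simp
      _ ≤ 3 * e ^ 2 * M ^ 5 * C * (1 / (‖y‖ ^ 2 * (1 + ‖y‖) ^ 2)) := by
          apply mul_le_mul_of_nonneg_left _ (by positivity)
          apply one_div_le_one_div_of_le (by positivity)
          apply mul_le_mul_of_nonneg_right _ (by positivity)
          calc ‖y‖ ^ 2 ≤ (1 + ‖y‖) ^ 2 := pow_le_pow_left₀ hn.le (by linarith) 2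
            _ ≤ (1 + ‖y‖) ^ 4 := pow_le_pow_right₀ (by linarith) (by norm_num)
  have hsum : ∫ y : R3, ((VV g ‖y‖ * kk2 e x 0 y - kk e x y * V2 g g1 g2 0 y) +
      (VV g ‖y‖ * kk2 e x 1 y - kk e x y * V2 g g1 g2 1 y) +
      (VV g ‖y‖ * kk2 e x 2 y - kk e x y * V2 g g1 g2 2 y)) = 0 := by
    have e1 := integral_add (i0.add i1) i2
    have e2 := integral_add i0 i1
    simp only [Pi.add_apply] at e1
    rw [e1, e2, z0, z1, z2]; simp
  have hae : (fun y : R3 => (VV g ‖y‖ * kk2 e x 0 y - kk e x y * V2 g g1 g2 0 y) +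
      (VV g ‖y‖ * kk2 e x 1 y - kk e x y * V2 g g1 g2 1 y) +
      (VV g ‖y‖ * kk2 e x 2 y - kk e x y * V2 g g1 g2 2 y)) =ᵐ[volume]
      fun y => g2 ‖y‖ / ‖y‖ * kk e x y - 3 * e ^ 2 / ss e x y ^ 5 * VV g ‖y‖ := by
    filter_upwards [ae_ne_zero] with y hy
    have a1 := sum_kk2 (ss_pos he x y)
    have a2 := sum_V2 (g := g) (g1 := g1) (g2 := g2) hy
    linear_combination VV g ‖y‖ * a1 - kk e x y * a2
  have hI2 : Integrable (fun y : R3 => g2 ‖y‖ / ‖y‖ * kk e x y) := by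
    have := ((i0.add i1).add i2).congr hae
    have := this.add hI
    refine this.congr (ae_of_all _ fun y => ?_)
    simp
  rw [integral_congr_ae hae, integral_sub hI2 hI] at hsum
  linarith

/-- **Newton's theorem** for the density `g''(r)/r`. -/
theorem newton (h : Rad g g1 g2) {x : R3} (hx : x ≠ 0) :
    ∫ y : R3, g2 ‖y‖ / ‖y‖ / ‖x - y‖ = 4 * Real.pi * VV g ‖x‖ := by
  obtain ⟨C, hC, hb⟩ := h.bounds
  set e : ℕ → ℝ := fun n => 1 / ((n : ℝ) + 1) with he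
  have hpos : ∀ n, 0 < e n := fun n => by positivity
  have h0 : Tendsto e atTop (𝓝 0) := tendsto_one_div_add_atTop_nhds_zero_nat
  have hR : Tendsto (fun n => ∫ y, 3 * e n ^ 2 / ss (e n) x y ^ 5 * VV g ‖y‖) atTop
      (𝓝 (4 * Real.pi * VV g ‖x‖)) := by
    refine tendsto_approx (C := C) (measurable_VV h) (fun y => ?_) ?_ hpos h0
    · rcases eq_or_ne y 0 with rfl | hy
      · simp [VV, hC]
      · refine (hb ‖y‖ (norm_pos_iff.2 hy)).1.trans ?_
        rw [div_le_iff₀ (by positivity)]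
        nlinarith [norm_nonneg y]
    · have hn : ‖x‖ ≠ 0 := norm_ne_zero_iff.2 hx
      have hg := (continuous_g h)
      exact ((continuousAt_const.sub (hg.comp continuous_norm).continuousAt).div
        continuous_norm.continuousAt hn)
  have hL : Tendsto (fun n => ∫ y : R3, g2 ‖y‖ / ‖y‖ * kk (e n) x y) atTop
      (𝓝 (∫ y : R3, g2 ‖y‖ / ‖y‖ / ‖x - y‖)) := by
    have mg : Measurable (fun y : R3 => g2 ‖y‖) := h.c2.measurable.comp measurable_norm
    refine tendsto_integral_of_dominated_convergence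
      (fun y => C * (1 / (‖y‖ * (1 + ‖y‖) ^ 2 * ‖x - y‖))) ?_
      ((integrable_maj_prod x).const_mul C) ?_ ?_
    · intro n
      exact ((mg.div measurable_norm).mul (measurable_kk (e n) x)).aestronglyMeasurable
    · intro n
      have a2 : ∀ᵐ y : R3, y ≠ x := by rw [ae_iff]; simp
      filter_upwards [ae_ne_zero, a2] with y hy hyx
      have hn : 0 < ‖y‖ := norm_pos_iff.2 hy
      have hxy : 0 < ‖x - y‖ := norm_pos_iff.2 (sub_ne_zero.2 (Ne.symm hyx))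
      obtain ⟨-, -, h3⟩ := hb ‖y‖ hn
      have h5 : |kk (e n) x y| ≤ 1 / ‖x - y‖ := by
        rw [kk, abs_of_nonneg (by have := ss_nonneg (e n) x y; positivity)]
        apply one_div_le_one_div_of_le hxy
        rw [norm_sub_rev]
        exact norm_le_ss _ x y
      rw [Real.norm_eq_abs, abs_mul, abs_div, abs_of_pos hn]
      calc |g2 ‖y‖| / ‖y‖ * |kk (e n) x y| ≤ C / (1 + ‖y‖) ^ 2 / ‖y‖ * (1 / ‖x - y‖) := by
            apply mul_le_mul _ h5 (abs_nonneg _) (by positivity)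
            exact div_le_div_of_nonneg_right h3 hn.le
        _ = _ := by field_simp
    · have a2 : ∀ᵐ y : R3, y ≠ x := by rw [ae_iff]; simp
      filter_upwards [a2] with y hyx
      have hxy : 0 < ‖x - y‖ := norm_pos_iff.2 (sub_ne_zero.2 (Ne.symm hyx))
      have hk : Tendsto (fun n => kk (e n) x y) atTop (𝓝 (1 / ‖x - y‖)) := by
        unfold kk
        apply Tendsto.div tendsto_const_nhds _ hxy.ne'
        unfold ss
        have : ‖x - y‖ = Real.sqrt (‖y - x‖ ^ 2 + 0 ^ 2) := by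
          rw [norm_sub_rev]; simp [Real.sqrt_sq]
        rw [this]
        exact (tendsto_const_nhds.add (h0.pow 2)).sqrt
      have := hk.const_mul (g2 ‖y‖ / ‖y‖)
      simpa [div_eq_mul_inv] using this
  have heq : ∀ n, ∫ y : R3, g2 ‖y‖ / ‖y‖ * kk (e n) x y =
      ∫ y, 3 * e n ^ 2 / ss (e n) x y ^ 5 * VV g ‖y‖ := fun n => green h (hpos n) x
  simp only [heq] at hL
  exact tendsto_nhds_unique hL hR

end

end Vale.Agent.P363.R.H10
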