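import Vale.Agent.P363.R.H10.ExpPoly

/-! Symmetries of the Coulomb form. -/

namespace Vale.Agent.P363.R.H10

open MeasureTheory Measure Module Topology Filter Set
open Vale.Agent.P363.Stmt

noncomputable section

/-! ### niceness -/

lemma nice_of_exp {q : R3 → ℝ} (mq : Measurable q) {k : ℝ} (hk : 0 < k) (n : ℕ) {C : ℝ}
    (hC : 0 ≤ C) (hq : ∀ x, |q x| ≤ C * (1 + ‖x‖) ^ n) :
    Nice (fun x => q x * Real.exp (-k * ‖x‖)) where
  meas := mq.mul (by fun_prop)
  bd := by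
    obtain ⟨D, hD, hb⟩ := pow_mul_exp_le (n + 6) hk
    refine ⟨C * D, by positivity, fun x => ?_⟩
    rw [le_div_iff₀ (by positivity), abs_mul, abs_of_pos (Real.exp_pos _)]
    calc |q x| * Real.exp (-k * ‖x‖) * (1 + ‖x‖) ^ 6
        ≤ C * (1 + ‖x‖) ^ n * Real.exp (-k * ‖x‖) * (1 + ‖x‖) ^ 6 := by
          apply mul_le_mul_of_nonneg_right _ (by positivity)
          exact mul_le_mul_of_nonneg_right (hq x) (Real.exp_pos _).le
      _ = C * ((1 + ‖x‖) ^ (n + 6) * Real.exp (-k * ‖x‖)) := by rw [pow_add]; ring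
      _ ≤ _ := mul_le_mul_of_nonneg_left (hb _ (norm_nonneg _)) hC

lemma Nice.add {u w : R3 → ℝ} (hu : Nice u) (hw : Nice w) : Nice (fun x => u x + w x) where
  meas := hu.meas.add hw.meas
  bd := by
    obtain ⟨C, hC, hb⟩ := hu.bd
    obtain ⟨D, hD, hd⟩ := hw.bd
    refine ⟨C + D, by positivity, fun x => ?_⟩
    rw [add_div]
    exact (abs_add_le _ _).trans (add_le_add (hb x) (hd x))

lemma Nice.const_mul {u : R3 → ℝ} (hu : Nice u) (c : ℝ) : Nice (fun x => c * u x) where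
  meas := hu.meas.const_mul c
  bd := by
    obtain ⟨C, hC, hb⟩ := hu.bd
    refine ⟨|c| * C, by positivity, fun x => ?_⟩
    rw [abs_mul, mul_div_assoc]
    exact mul_le_mul_of_nonneg_left (hb x) (abs_nonneg _)

/-! ### bilinearity and symmetry -/

lemma DD_eq_prod {u w : R3 → ℝ} (hu : Nice u) (hw : Nice w) :
    DD u w = ∫ p : R3 × R3, u p.1 * w p.2 / ‖p.1 - p.2‖ ∂(volume.prod volume) := by
  rw [integral_prod _ (hu.integrable_DD hw), DD]

lemma DD_comm {u w : R3 → ℝ} (hu : Nice u) (hw : Nice w) : DD u w = DD w u := by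
  rw [DD, integral_integral_swap (hu.integrable_DD hw), DD]
  congr 1; ext y; congr 1; ext x
  rw [norm_sub_rev, mul_comm]

lemma DD_add_left {u u' w : R3 → ℝ} (hu : Nice u) (hu' : Nice u') (hw : Nice w) :
    DD (fun x => u x + u' x) w = DD u w + DD u' w := by
  rw [DD_eq_prod (hu.add hu') hw, DD_eq_prod hu hw, DD_eq_prod hu' hw,
    ← integral_add (hu.integrable_DD hw) (hu'.integrable_DD hw)]
  congr 1; ext p; ring

lemma DD_add_right {u w w' : R3 → ℝ} (hu : Nice u) (hw : Nice w) (hw' : Nice w') :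
    DD u (fun x => w x + w' x) = DD u w + DD u w' := by
  rw [DD_comm hu (hw.add hw'), DD_add_left hw hw' hu, DD_comm hw hu, DD_comm hw' hu]

lemma DD_mul_left (c : ℝ) (u w : R3 → ℝ) : DD (fun x => c * u x) w = c * DD u w := by
  rw [DD, DD, ← integral_const_mul]
  congr 1; ext x
  rw [← integral_const_mul]
  congr 1; ext y; ring

lemma DD_mul_right (c : ℝ) (u w : R3 → ℝ) : DD u (fun x => c * w x) = c * DD u w := by
  rw [DD, DD, ← integral_const_mul]
  congr 1; ext x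
  rw [← integral_const_mul]
  congr 1; ext y; ring

/-! ### isometries -/

lemma DD_isom (T : R3 ≃ₗᵢ[ℝ] R3) (u w : R3 → ℝ) :
    DD (fun x => u (T x)) (fun x => w (T x)) = DD u w := by
  have hT : MeasurePreserving T volume volume := T.measurePreserving
  have he : MeasurableEmbedding T := T.toHomeomorph.measurableEmbedding
  have h1 : ∀ x : R3, ∫ y, u (T x) * w (T y) / ‖x - y‖ = ∫ y, u (T x) * w y / ‖T x - y‖ := by
    intro x
    rw [← hT.integral_comp he (fun y => u (T x) * w y / ‖T x - y‖)]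
    congr 1; ext y
    rw [← map_sub, T.norm_map]
  rw [DD, DD]
  simp only [h1]
  exact hT.integral_comp he (fun x => ∫ y, u x * w y / ‖x - y‖)

lemma integral_isom (T : R3 ≃ₗᵢ[ℝ] R3) (u : R3 → ℝ) : ∫ x, u (T x) = ∫ x, u x := by
  have hT : MeasurePreserving T volume volume := T.measurePreserving
  have he : MeasurableEmbedding T := T.toHomeomorph.measurableEmbedding
  exact hT.integral_comp he u

/-- permutation of the coordinates -/
def permI (σ : Equiv.Perm (Fin 3)) : R3 ≃ₗᵢ[ℝ] R3 :=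
  LinearIsometryEquiv.piLpCongrLeft 2 ℝ ℝ σ

lemma permI_apply (σ : Equiv.Perm (Fin 3)) (x : R3) (i : Fin 3) : permI σ x (σ i) = x i := by
  simp [permI, LinearIsometryEquiv.piLpCongrLeft_apply, Equiv.piCongrLeft']

/-- reflection of the coordinate `k` -/
def reflI (k : Fin 3) : R3 ≃ₗᵢ[ℝ] R3 :=
  LinearIsometryEquiv.piLpCongrRight 2 (fun i : Fin 3 =>
    if i = k then LinearIsometryEquiv.neg ℝ else LinearIsometryEquiv.refl ℝ ℝ)

lemma reflI_apply (k : Fin 3) (x : R3) (i : Fin 3) :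
    reflI k x i = if i = k then - x i else x i := by
  simp only [reflI, LinearIsometryEquiv.piLpCongrRight_apply]
  split_ifs with h <;> simp

/-- the reflection exchanging `(x₀+x₁)/√2` and `x₀` -/
def rot45L : R3 →ₗ[ℝ] R3 where
  toFun x := !₂[(x 0 + x 1) / Real.sqrt 2, (x 0 - x 1) / Real.sqrt 2, x 2]
  map_add' x y := by
    ext i; fin_cases i <;> simp <;> ring
  map_smul' c x := by
    ext i; fin_cases i <;> simp <;> ring

lemma rot45L_0 (x : R3) : rot45L x 0 = (x 0 + x 1) / Real.sqrt 2 := by simp [rot45L]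
lemma rot45L_1 (x : R3) : rot45L x 1 = (x 0 - x 1) / Real.sqrt 2 := by simp [rot45L]
lemma rot45L_2 (x : R3) : rot45L x 2 = x 2 := by simp [rot45L]

def rot45 : R3 ≃ₗᵢ[ℝ] R3 :=
  LinearIsometry.toLinearIsometryEquiv
    ({ rot45L with
        norm_map' := by
          intro x
          have h : ‖rot45L x‖ ^ 2 = ‖x‖ ^ 2 := by
            rw [norm_sq_eq_sum, norm_sq_eq_sum, rot45L_0, rot45L_1, rot45L_2, div_pow, div_pow,
              Real.sq_sqrt (by norm_num)]
            ring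
          exact (sq_eq_sq₀ (norm_nonneg _) (norm_nonneg _)).1 h } : R3 →ₗᵢ[ℝ] R3) rfl

lemma rot45_apply (x : R3) : rot45 x = rot45L x := rfl

/-! ### angular moments -/

lemma integral_coord_sq {F : ℝ → ℝ} (hi : ∀ i : Fin 3, Integrable (fun x : R3 => x i ^ 2 * F ‖x‖))
    (i : Fin 3) : ∫ x : R3, x i ^ 2 * F ‖x‖ = 1 / 3 * ∫ x : R3, ‖x‖ ^ 2 * F ‖x‖ := by
  have h : ∀ j : Fin 3, ∫ x : R3, x j ^ 2 * F ‖x‖ = ∫ x : R3, x 0 ^ 2 * F ‖x‖ := by
    intro j
    rw [← integral_isom (permI (Equiv.swap 0 j)) (fun x => x j ^ 2 * F ‖x‖)]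
    congr 1; ext x
    have := permI_apply (Equiv.swap 0 j) x 0
    rw [Equiv.swap_apply_left] at this
    rw [this, LinearIsometryEquiv.norm_map]
  have e : ∫ x : R3, ‖x‖ ^ 2 * F ‖x‖ = (∫ x : R3, x 0 ^ 2 * F ‖x‖) +
      (∫ x : R3, x 1 ^ 2 * F ‖x‖) + ∫ x : R3, x 2 ^ 2 * F ‖x‖ := by
    have q1 := integral_add (hi 0) (hi 1)
    have q2 := integral_add ((hi 0).add (hi 1)) (hi 2)
    simp only [Pi.add_apply] at q1 q2
    rw [← q1, ← q2]
    congr 1; ext x
    rw [norm_sq_eq_sum]; ring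
  rw [e, h 1, h 2, h i]
  ring

/-- Coulomb energy of `x_i² F` with a radial density -/
lemma DD_coord_sq {F G : ℝ → ℝ} (hi : ∀ i : Fin 3, Nice (fun x : R3 => x i ^ 2 * F ‖x‖))
    (hG : Nice (fun x : R3 => G ‖x‖)) (i : Fin 3) :
    DD (fun x => x i ^ 2 * F ‖x‖) (fun y => G ‖y‖) =
      1 / 3 * DD (fun x => ‖x‖ ^ 2 * F ‖x‖) (fun y => G ‖y‖) := by
  have h : ∀ j : Fin 3, DD (fun x => x j ^ 2 * F ‖x‖) (fun y => G ‖y‖) =
      DD (fun x => x 0 ^ 2 * F ‖x‖) (fun y => G ‖y‖) := by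
    intro j
    rw [← DD_isom (permI (Equiv.swap 0 j)) (fun x => x j ^ 2 * F ‖x‖) (fun y => G ‖y‖)]
    have e1 : (fun x : R3 => (permI (Equiv.swap 0 j) x) j ^ 2 * F ‖permI (Equiv.swap 0 j) x‖) =
        fun x => x 0 ^ 2 * F ‖x‖ := by
      ext x
      have := permI_apply (Equiv.swap 0 j) x 0
      rw [Equiv.swap_apply_left] at this
      rw [this, LinearIsometryEquiv.norm_map]
    have e2 : (fun x : R3 => G ‖permI (Equiv.swap 0 j) x‖) = fun x => G ‖x‖ := by
      ext x; rw [LinearIsometryEquiv.norm_map]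
    rw [e1, e2]
  have e : (fun x : R3 => ‖x‖ ^ 2 * F ‖x‖) =
      fun x => (x 0 ^ 2 * F ‖x‖ + x 1 ^ 2 * F ‖x‖) + x 2 ^ 2 * F ‖x‖ := by
    ext x; rw [norm_sq_eq_sum]; ring
  rw [e, DD_add_left ((hi 0).add (hi 1)) (hi 2) hG, DD_add_left (hi 0) (hi 1) hG, h 1, h 2, h i]
  ring

end

end Vale.Agent.P363.R.H10
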