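import Vale.Agent.P363.R.H10.Multi

/-! Numerical values of the Coulomb energies. -/

namespace Vale.Agent.P363.R.H10

open MeasureTheory Measure Module Topology Filter Set
open Vale.Agent.P363.Stmt

noncomputable section

/-- evaluation of radial Coulomb energies -/
lemma DD_val {a b : ℝ} (ha : 0 < a) (hb : 0 < b) (c0 c1 c2 c3 : ℝ) (f G : ℝ → ℝ)
    (hG : ∀ r, 0 < r → r * G r = (((2 * c2 - a * c1) - a * (c1 - a * c0)) +
      (2 * (3 * c3 - a * c2) - a * (2 * c2 - a * c1)) * r +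
      (3 * (-a * c3) - a * (3 * c3 - a * c2)) * r ^ 2 + (-a * (-a * c3)) * r ^ 3) *
        Real.exp (-a * r)) {n m : ℕ} (p : Fin n → ℝ) (q : Fin m → ℝ)
    (hp : ∀ r, r * f r * c0 = ∑ i, p i * r ^ (i : ℕ))
    (hq : ∀ r, r * f r * (c0 + c1 * r + c2 * r ^ 2 + c3 * r ^ 3) = ∑ i, q i * r ^ (i : ℕ)) :
    DD (fun x => f ‖x‖ * Real.exp (-b * ‖x‖)) (fun y => G ‖y‖) =
      16 * Real.pi ^ 2 * ((∑ i, p i * ((i : ℕ).factorial / b ^ ((i : ℕ) + 1))) -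
        ∑ i, q i * ((i : ℕ).factorial / (a + b) ^ ((i : ℕ) + 1))) := by
  rw [DD_ce ha c0 c1 c2 c3 (fun r => f r * Real.exp (-b * r)) G hG]
  congr 1
  refine int_two hb (by positivity) p q (fun r hr => ?_)
  rw [← hp, ← hq]
  have : Real.exp (-(a + b) * r) = Real.exp (-b * r) * Real.exp (-a * r) := by
    rw [← Real.exp_add]; congr 1; ring
  rw [this]
  ring

/-- `D((2-r)² e^{-r}, e^{-2r})` -/
lemma val_ss_11 : DD (fun x : R3 => (2 - ‖x‖) ^ 2 * Real.exp (-1 * ‖x‖))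
    (fun y => Real.exp (-2 * ‖y‖)) = 16 * Real.pi ^ 2 * (34 / 81) := by
  rw [DD_val (a := 2) (b := 1) (by norm_num) (by norm_num) (1 / 4) (1 / 4) 0 0
    (fun r => (2 - r) ^ 2) (fun r => Real.exp (-2 * r)) (fun r _ => by ring)
    (p := ![0, 1, -1, 1 / 4]) (q := ![0, 1, 0, -3 / 4, 1 / 4])
    (fun r => by simp [Fin.sum_univ_succ]; ring) (fun r => by simp [Fin.sum_univ_succ]; ring)]
  simp [Fin.sum_univ_succ, Nat.factorial]
  norm_num

/-- `D(r² e^{-r}, e^{-2r})` -/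
lemma val_pp_11 : DD (fun x : R3 => ‖x‖ ^ 2 * Real.exp (-1 * ‖x‖))
    (fun y => Real.exp (-2 * ‖y‖)) = 16 * Real.pi ^ 2 * (118 / 81) := by
  rw [DD_val (a := 2) (b := 1) (by norm_num) (by norm_num) (1 / 4) (1 / 4) 0 0
    (fun r => r ^ 2) (fun r => Real.exp (-2 * r)) (fun r _ => by ring)
    (p := ![0, 0, 0, 1 / 4]) (q := ![0, 0, 0, 1 / 4, 1 / 4])
    (fun r => by simp [Fin.sum_univ_succ]; ring) (fun r => by simp [Fin.sum_univ_succ]; ring)]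
  simp [Fin.sum_univ_succ, Nat.factorial]
  norm_num

/-- `D((2-r) e^{-3r/2}, (2-r) e^{-3r/2})` -/
lemma val_1s_1s : DD (fun x : R3 => (2 - ‖x‖) * Real.exp (-(3 / 2) * ‖x‖))
    (fun y => (2 - ‖y‖) * Real.exp (-(3 / 2) * ‖y‖)) = 16 * Real.pi ^ 2 * (32 / 729) := by
  rw [DD_val (a := 3 / 2) (b := 3 / 2) (by norm_num) (by norm_num) 0 (-8 / 27) (-4 / 9) 0
    (fun r => (2 - r)) (fun r => (2 - r) * Real.exp (-(3 / 2) * r)) (fun r _ => by ring)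
    (p := ![0]) (q := ![0, 0, -16 / 27, -16 / 27, 4 / 9])
    (fun r => by simp) (fun r => by simp [Fin.sum_univ_succ]; ring)]
  simp [Fin.sum_univ_succ, Nat.factorial]
  norm_num

/-- `D((2-r)² e^{-r}, (2-r)² e^{-r})` -/
lemma val_ss_ss : DD (fun x : R3 => (2 - ‖x‖) ^ 2 * Real.exp (-1 * ‖x‖))
    (fun y => (2 - ‖y‖) ^ 2 * Real.exp (-1 * ‖y‖)) = 16 * Real.pi ^ 2 * (77 / 8) := by
  rw [DD_val (a := 1) (b := 1) (by norm_num) (by norm_num) 8 6 2 1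
    (fun r => (2 - r) ^ 2) (fun r => (2 - r) ^ 2 * Real.exp (-1 * r)) (fun r _ => by ring)
    (p := ![0, 32, -32, 8]) (q := ![0, 32, -8, -8, 2, -2, 1])
    (fun r => by simp [Fin.sum_univ_succ]; ring) (fun r => by simp [Fin.sum_univ_succ]; ring)]
  simp [Fin.sum_univ_succ, Nat.factorial]
  norm_num

/-- `D(r² e^{-r}, (2-r)² e^{-r})` -/
lemma val_pp_ss : DD (fun x : R3 => ‖x‖ ^ 2 * Real.exp (-1 * ‖x‖))
    (fun y => (2 - ‖y‖) ^ 2 * Real.exp (-1 * ‖y‖)) = 16 * Real.pi ^ 2 * (249 / 8) := by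
  rw [DD_val (a := 1) (b := 1) (by norm_num) (by norm_num) 8 6 2 1
    (fun r => r ^ 2) (fun r => (2 - r) ^ 2 * Real.exp (-1 * r)) (fun r _ => by ring)
    (p := ![0, 0, 0, 8]) (q := ![0, 0, 0, 8, 6, 2, 1])
    (fun r => by simp [Fin.sum_univ_succ]; ring) (fun r => by simp [Fin.sum_univ_succ]; ring)]
  simp [Fin.sum_univ_succ, Nat.factorial]
  norm_num

/-- `D(r² e^{-r}, r² e^{-r})` -/
lemma val_pp_pp : DD (fun x : R3 => ‖x‖ ^ 2 * Real.exp (-1 * ‖x‖))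
    (fun y => ‖y‖ ^ 2 * Real.exp (-1 * ‖y‖)) = 16 * Real.pi ^ 2 * (837 / 8) := by
  rw [DD_val (a := 1) (b := 1) (by norm_num) (by norm_num) 24 18 6 1
    (fun r => r ^ 2) (fun r => r ^ 2 * Real.exp (-1 * r)) (fun r _ => by ring)
    (p := ![0, 0, 0, 24]) (q := ![0, 0, 0, 24, 18, 6, 1])
    (fun r => by simp [Fin.sum_univ_succ]; ring) (fun r => by simp [Fin.sum_univ_succ]; ring)]
  simp [Fin.sum_univ_succ, Nat.factorial]
  norm_num

/-- `D(w, w)`, `w = (-3 - 3 r + r²) e^{-r}` -/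
lemma val_w_w : DD (fun x : R3 => (-3 - 3 * ‖x‖ + ‖x‖ ^ 2) * Real.exp (-1 * ‖x‖))
    (fun y => (-3 - 3 * ‖y‖ + ‖y‖ ^ 2) * Real.exp (-1 * ‖y‖)) =
      16 * Real.pi ^ 2 * (81 / 8) := by
  rw [DD_val (a := 1) (b := 1) (by norm_num) (by norm_num) 0 3 3 1
    (fun r => -3 - 3 * r + r ^ 2) (fun r => (-3 - 3 * r + r ^ 2) * Real.exp (-1 * r))
    (fun r _ => by ring)
    (p := ![0]) (q := ![0, 0, -9, -18, -9, 0, 1])
    (fun r => by simp) (fun r => by simp [Fin.sum_univ_succ]; ring)]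
  simp [Fin.sum_univ_succ, Nat.factorial]
  norm_num

lemma ce_simp (a c0 c1 c2 c3 r : ℝ) : ce a c0 c1 c2 c3 r =
    (c0 + c1 * r + c2 * r ^ 2 + c3 * r ^ 3) * Real.exp (-a * r) := rfl

/-- `D(x_i e^{-3r/2}, x_i e^{-3r/2})` -/
lemma val_1p_1p (i : Fin 3) : DD (fun x : R3 => x i * Real.exp (-(3 / 2) * ‖x‖))
    (fun x => x i * Real.exp (-(3 / 2) * ‖x‖)) = 16 * Real.pi ^ 2 * (224 / 6561) := by
  have hF := ex_ce (a := 3 / 2) (by norm_num) 1 0 0 0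
  have hG := ex_ce (a := 3 / 2) (by norm_num) (-4 / 9) (-2 / 3) 0 0
  have h := DD_dipole hF hG (fun r => by
    convert! hasDerivAt_ce (3 / 2) (-4 / 9) (-2 / 3) 0 0 r using 1
    simp only [ce]; ring) i
  have e : (fun x : R3 => x i * ce (3 / 2) 1 0 0 0 ‖x‖) =
      fun x => x i * Real.exp (-(3 / 2) * ‖x‖) := by ext x; simp [ce]
  rw [e] at h
  rw [h]
  have h2 := int_one (a := 3) (by norm_num) (F := fun r => r ^ 2 * ce (3 / 2) (-4 / 9) (-2 / 3) 0 0 r ^ 2)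
    ![0, 0, 16 / 81, 16 / 27, 4 / 9] (fun r _ => by
      have : Real.exp (-3 * r) = Real.exp (-(3 / 2) * r) ^ 2 := by
        rw [pow_two, ← Real.exp_add]; congr 1; ring
      rw [this]
      simp [ce, Fin.sum_univ_succ]; ring)
  rw [h2]
  simp [Fin.sum_univ_succ, Nat.factorial]
  norm_num
  ring

/-- `D(x_i (2-r) e^{-r}, x_i (2-r) e^{-r})` -/
lemma val_sp_sp (i : Fin 3) : DD (fun x : R3 => x i * ((2 - ‖x‖) * Real.exp (-1 * ‖x‖)))
    (fun x => x i * ((2 - ‖x‖) * Real.exp (-1 * ‖x‖))) = 16 * Real.pi ^ 2 * (15 / 8) := by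
  have hF := ex_ce (a := 1) (by norm_num) 2 (-1) 0 0
  have hG := ex_ce (a := 1) (by norm_num) 0 0 1 0
  have h := DD_dipole hF hG (fun r => by
    convert! hasDerivAt_ce 1 0 0 1 0 r using 1
    simp only [ce]; ring) i
  have e : (fun x : R3 => x i * ce 1 2 (-1) 0 0 ‖x‖) =
      fun x => x i * ((2 - ‖x‖) * Real.exp (-1 * ‖x‖)) := by ext x; simp only [ce]; ring
  rw [e] at h
  rw [h]
  have h2 := int_one (a := 2) (by norm_num) (F := fun r => r ^ 2 * ce 1 0 0 1 0 r ^ 2)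
    ![0, 0, 0, 0, 0, 0, 1] (fun r _ => by
      have : Real.exp (-2 * r) = Real.exp (-1 * r) ^ 2 := by
        rw [pow_two, ← Real.exp_add]; congr 1; ring
      rw [this]
      simp [ce, Fin.sum_univ_succ]; ring)
  rw [h2]
  simp [Fin.sum_univ_succ, Nat.factorial]
  norm_num
  ring

/-- `D(x₀ x₁ e^{-r}, x₀ x₁ e^{-r})` -/
lemma val_xy_xy : DD (fun x : R3 => x 0 * x 1 * Real.exp (-1 * ‖x‖))
    (fun x => x 0 * x 1 * Real.exp (-1 * ‖x‖)) = 16 * Real.pi ^ 2 * (27 / 40) := by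
  have hF := ex_ce (a := 1) (by norm_num) 1 0 0 0
  have hG := ex_ce (a := 1) (by norm_num) (-1) (-1) 0 0
  have h := DD_quad hF hG (fun r => by
    convert! hasDerivAt_ce 1 (-1) (-1) 0 0 r using 1
    simp only [ce]; ring)
  have e : (fun x : R3 => x 0 * x 1 * ce 1 1 0 0 0 ‖x‖) =
      fun x => x 0 * x 1 * Real.exp (-1 * ‖x‖) := by ext x; simp [ce]
  have e2 : (fun x : R3 => 3 * ce 1 (-1) (-1) 0 0 ‖x‖ + ‖x‖ ^ 2 * ce 1 1 0 0 0 ‖x‖) =
      fun x => (-3 - 3 * ‖x‖ + ‖x‖ ^ 2) * Real.exp (-1 * ‖x‖) := by ext x; simp [ce]; ring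
  rw [e, e2, val_w_w] at h
  have h2 := int_one (a := 2) (by norm_num)
    (F := fun r => r ^ 2 * (r ^ 2 * ce 1 (-1) (-1) 0 0 r ^ 2))
    ![0, 0, 0, 0, 1, 2, 1] (fun r _ => by
      have : Real.exp (-2 * r) = Real.exp (-1 * r) ^ 2 := by
        rw [pow_two, ← Real.exp_add]; congr 1; ring
      rw [this]
      simp [ce, Fin.sum_univ_succ]; ring)
  have h3 : ∑ i : Fin 7, ![(0 : ℝ), 0, 0, 0, 1, 2, 1] i *
      ((i : ℕ).factorial / (2 : ℝ) ^ ((i : ℕ) + 1)) = 81 / 8 := by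
    simp [Fin.sum_univ_succ, Nat.factorial]
    norm_num
  rw [h2, h3] at h
  linarith

end

end Vale.Agent.P363.R.H10
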